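import Vale.Agent.P067.Coh.Action
import Vale.Agent.P067.Sys

/-!
The coset complex of a family of subgroups as a complex of faces, and the dictionary with the
chamber language.
-/

namespace Vale.Agent.P067.Coh

open scoped Pointwise

noncomputable section

variable {G : Type*} [Group G] {ι : Type*} [DecidableEq ι] (K : Finset ι → Subgroup G)

/-- The class of `x` of type `t`. -/
def cls (x : G) (t : ι) : Σ t : ι, G ⧸ K {t} := ⟨t, QuotientGroup.mk x⟩

instance : SMul G (Σ t : ι, G ⧸ K {t}) := ⟨fun g v => ⟨v.1, g • v.2⟩⟩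

instance : MulAction G (Σ t : ι, G ⧸ K {t}) where
  one_smul v := congrArg (Sigma.mk v.1) (one_smul G v.2)
  mul_smul g h v := congrArg (Sigma.mk v.1) (mul_smul g h v.2)

instance : DecidableEq (Σ t : ι, G ⧸ K {t}) := Classical.decEq _

theorem smul_cls (g x : G) (t : ι) : g • cls K x t = cls K (g * x) t := rfl

/-- The face of the chamber `x` of the set of types `T`. -/
def img (x : G) (T : Finset ι) : Finset (Σ t : ι, G ⧸ K {t}) := T.image (cls K x)

theorem img_fst (x : G) (T : Finset ι) : (img K x T).image Sigma.fst = T := by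
  rw [img, Finset.image_image]
  exact Finset.image_id'

theorem img_card (x : G) (T : Finset ι) : (img K x T).card = T.card :=
  Finset.card_image_of_injective _ fun _ _ h => congrArg Sigma.fst h

theorem smul_img (g x : G) (T : Finset ι) : g • img K x T = img K (g * x) T := by
  rw [img, img, Finset.smul_finset_def, Finset.image_image]
  rfl

theorem img_erase (x : G) (T : Finset ι) (t : ι) :
    (img K x T).erase (cls K x t) = img K x (T.erase t) :=
  (Finset.image_erase (fun _ _ h => congrArg Sigma.fst h) T t).symm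

/-- The coset complex. -/
def chamberCx : Cx G (Σ t : ι, G ⧸ K {t}) where
  face s := ∃ x T, s = img K x T
  down := by
    rintro s t ⟨x, T, rfl⟩ ht
    refine ⟨x, T.filter fun a => cls K x a ∈ t, Finset.ext fun v => ?_⟩
    simp only [img, Finset.mem_image, Finset.mem_filter]
    refine ⟨fun hv => ?_, ?_⟩
    · obtain ⟨a, ha, rfl⟩ := Finset.mem_image.1 (ht hv)
      exact ⟨a, ⟨ha, hv⟩, rfl⟩
    · rintro ⟨a, ⟨-, ha⟩, rfl⟩
      exact ha
  smul_mem g s := by
    rintro ⟨x, T, rfl⟩
    exact ⟨g * x, T, smul_img K g x T⟩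

theorem img_cell (x : G) (T : Finset ι) : (chamberCx K).Cell T.card (img K x T) :=
  ⟨⟨x, T, rfl⟩, img_card K x T⟩

variable (hK : ∀ T g, g ∈ K T ↔ ∀ t ∈ T, g ∈ K {t})
include hK

theorem img_eq_iff {x y : G} {T : Finset ι} : img K x T = img K y T ↔ x⁻¹ * y ∈ K T := by
  rw [hK]
  constructor
  · intro h t ht
    have hm : cls K x t ∈ img K y T := h ▸ Finset.mem_image_of_mem _ ht
    obtain ⟨u, -, hu⟩ := Finset.mem_image.1 hm
    obtain rfl : u = t := congrArg Sigma.fst hu
    exact QuotientGroup.eq.1 (eq_of_heq (Sigma.mk.inj hu).2).symm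
  · intro h
    exact Finset.image_congr fun t ht => congrArg (Sigma.mk t) (QuotientGroup.eq.2 (h t ht))

/-- The stabiliser of a face. -/
theorem mem_stab_img {g x : G} {T : Finset ι} :
    g ∈ MulAction.stabilizer G (img K x T) ↔ x⁻¹ * g * x ∈ K T := by
  rw [MulAction.mem_stabilizer_iff, smul_img, eq_comm, img_eq_iff K hK, ← mul_assoc]

/-- A chamber function as a function of faces. -/
def toFace (f : Finset ι → G → ZMod 2) (s : Finset (Σ t : ι, G ⧸ K {t})) : ZMod 2 :=
  open scoped Classical in
  if h : ∃ x T, s = img K x T then f h.choose_spec.choose h.choose else 0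

theorem toFace_img {f : Finset ι → G → ZMod 2}
    (hf : ∀ T x y, cosetRel K T x y → f T x = f T y) (x : G) (T : Finset ι) :
    toFace K f (img K x T) = f T x := by
  have h : ∃ y S, img K x T = img K y S := ⟨x, T, rfl⟩
  rw [toFace, dif_pos h]
  have he := h.choose_spec.choose_spec
  have hT : h.choose_spec.choose = T := by
    rw [← img_fst K h.choose h.choose_spec.choose, ← he, img_fst]
  rw [hT] at he ⊢
  exact (hf T x _ ((img_eq_iff K hK).1 he)).symm

omit hK in
theorem dX_img (φ : Finset (Σ t : ι, G ⧸ K {t}) → ZMod 2) (x : G) (T : Finset ι) (p : ℕ)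
    (hT : T.card = p + 1) :
    dX (chamberCx K) p φ (img K x T) = ∑ t ∈ T, φ (img K x (T.erase t)) := by
  rw [dX_cell (chamberCx K) φ (hT ▸ img_cell K x T), img,
    Finset.sum_image fun a _ b _ h => congrArg Sigma.fst h]
  exact Finset.sum_congr rfl fun t _ => congrArg φ (img_erase K x T t)

/-- Chamber exactness gives exactness of the complex. -/
theorem ex_of_acyclic {b : ℕ} (hA : Acyclic (cosetRel K) (b + 1)) : Ex (chamberCx K) b := by
  intro φ hφ hd
  have hcell : ∀ (x : G) (T : Finset ι) (p : ℕ), T.card ≠ p →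
      ¬(chamberCx K).Cell p (img K x T) := fun x T p hp h => hp (img_card K x T ▸ h.2)
  obtain ⟨g, ⟨hgs, hgc⟩, hgd⟩ := hA (fun T x => φ (img K x T))
    ⟨fun T x hT => hφ _ (hcell x T _ hT), fun T x y h => congrArg φ ((img_eq_iff K hK).2 h)⟩
    (funext fun T => funext fun x => by
      show ∑ t ∈ T, φ (img K x (T.erase t)) = 0
      by_cases hT : T.card = b + 2
      · rw [← dX_img K φ x T (b + 1) hT, hd]
        rfl
      · refine Finset.sum_eq_zero fun t ht => hφ _ (hcell x _ _ ?_)
        rw [Finset.card_erase_of_mem ht]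
        have := Finset.card_pos.2 ⟨t, ht⟩
        omega)
  refine ⟨toFace K g, fun s hs => ?_, funext fun s => ?_⟩
  · by_cases h : ∃ x T, s = img K x T
    · obtain ⟨x, T, rfl⟩ := h
      rw [toFace_img K hK hgc]
      exact hgs T x fun h' => hs ⟨⟨x, T, rfl⟩, by rw [img_card, h']; rfl⟩
    · rw [toFace, dif_neg h]
  · by_cases hs : (chamberCx K).Cell (b + 1) s
    · obtain ⟨⟨x, T, rfl⟩, hc⟩ := hs
      rw [img_card] at hc
      rw [dX_img K _ x T b hc]
      simp only [toFace_img K hK hgc]
      exact congrFun (congrFun hgd T) x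
    · rw [dX_not _ _ hs, hφ s hs]

/-- The quotient by a normal subgroup: invariant exactness gives chamber exactness. -/
theorem acyclic_of_exInv (L : Subgroup G) [L.Normal] {b : ℕ} (hX : ExInv (chamberCx K) L b) :
    Acyclic (cosetRel fun T => (K T).map (QuotientGroup.mk' L)) (b + 1) := by
  classical
  rintro f ⟨hfs, hfc⟩ hd
  have hmk : ∀ γ ∈ L, ∀ x : G, ((γ * x : G) : G ⧸ L) = (x : G ⧸ L) := fun γ hγ x => by
    rw [QuotientGroup.mk_mul, (QuotientGroup.eq_one_iff γ).2 hγ, one_mul]
  set F : Finset ι → G → ZMod 2 := fun T x => f T (x : G ⧸ L)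
  have hF : ∀ T x y, cosetRel K T x y → F T x = F T y := fun T x y h => hfc T _ _ ⟨x⁻¹ * y, h, rfl⟩
  obtain ⟨ψ, hψs, hψi, hψd⟩ := hX (toFace K F) (fun s hs => by
      by_cases h : ∃ x T, s = img K x T
      · obtain ⟨x, T, rfl⟩ := h
        rw [toFace_img K hK hF]
        exact hfs T _ fun h' => hs ⟨⟨x, T, rfl⟩, by rw [img_card, h']⟩
      · rw [toFace, dif_neg h])
    (fun γ hγ s => by
      by_cases h : ∃ x T, s = img K x T
      · obtain ⟨x, T, rfl⟩ := h
        rw [smul_img, toFace_img K hK hF, toFace_img K hK hF]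
        show f T _ = f T _
        rw [hmk γ hγ x]
      · have h' : ¬∃ x T, γ • s = img K x T := by
          rintro ⟨x, T, he⟩
          refine h ⟨γ⁻¹ * x, T, ?_⟩
          rw [← smul_img, ← he, inv_smul_smul]
        simp only [toFace, dif_neg h, dif_neg h'])
    (funext fun s => by
      by_cases hs : (chamberCx K).Cell (b + 1 + 1) s
      · obtain ⟨⟨x, T, rfl⟩, hc⟩ := hs
        rw [img_card] at hc
        rw [dX_img K _ x T _ hc]
        simp only [toFace_img K hK hF]
        exact congrFun (congrFun hd T) (x : G ⧸ L)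
      · rw [dX_not _ _ hs]; rfl)
  refine ⟨fun T w => ψ (img K (Quotient.out w) T), ⟨fun T w hT => ?_, fun T w w' h => ?_⟩,
    funext fun T => funext fun w => ?_⟩
  · refine hψs _ fun h => hT ?_
    have := h.2
    rw [img_card] at this
    simpa using this
  · obtain ⟨k, hk, hkw⟩ := h
    obtain ⟨γ, hγ, he⟩ : ∃ γ ∈ L, γ * (Quotient.out w * k) = Quotient.out w' := by
      refine ⟨Quotient.out w' * (Quotient.out w * k)⁻¹, ?_, inv_mul_cancel_right _ _⟩
      rw [← QuotientGroup.eq_one_iff, QuotientGroup.mk_mul, QuotientGroup.mk_inv,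
        QuotientGroup.mk_mul, QuotientGroup.out_eq', QuotientGroup.out_eq',
        show (k : G ⧸ L) = w⁻¹ * w' from hkw, mul_inv_cancel_left, mul_inv_cancel]
    show ψ (img K (Quotient.out w) T) = ψ (img K (Quotient.out w') T)
    rw [← he, ← smul_img, hψi γ hγ]
    exact congrArg ψ ((img_eq_iff K hK).2 (by simpa using hk))
  · show ∑ t ∈ T, ψ (img K (Quotient.out w) (T.erase t)) = f T w
    by_cases hT : T.card = b + 1
    · rw [← dX_img K ψ _ T b hT, hψd, toFace_img K hK hF]
      exact congrArg (f T) (QuotientGroup.out_eq' w)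
    · rw [hfs T w hT]
      refine Finset.sum_eq_zero fun t ht => hψs _ fun h => hT ?_
      have h2 := h.2
      rw [img_card, Finset.card_erase_of_mem ht] at h2
      have := Finset.card_pos.2 ⟨t, ht⟩
      omega

end

end Vale.Agent.P067.Coh
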