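import Vale.Agent.P067.Coh.Cochain

/-!
Subgroups with an invariant mean modulo two have no cohomology: finite groups of odd order and
abelian groups of odd prime exponent.
-/

namespace Vale.Agent.P067.Coh

variable {G : Type*} [Group G]

/-- A translation invariant mean gives acyclicity. -/
theorem acyc_of_mean {K : Subgroup G} (Φ : (↥K → ZMod 2) →ₗ[ZMod 2] ZMod 2)
    (h1 : Φ (fun _ => 1) = 1) (hΦ : ∀ (g : ↥K) f, Φ (fun m => f (g * m)) = Φ f) (k : ℕ) :
    Acyc K k := by
  intro f hf hd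
  refine ⟨fun x => Φ fun m => f (Fin.cons (m : G) x), fun g hg x => ?_, funext fun x => ?_⟩
  · show Φ (fun m => f (Fin.cons (m : G) ((g * ·) ∘ x))) = _
    rw [← hΦ ⟨g, hg⟩]
    refine congrArg Φ (funext fun m => ?_)
    rw [← hf g hg (Fin.cons (m : G) x), Fin.comp_cons]
    rfl
  · have key : ∀ m : ↥K, del (cur f (m : G)) x = f x := fun m => by
      have h := congrFun hd (Fin.cons (m : G) x)
      rw [del_cons, Pi.zero_apply] at h
      exact (CharTwo.add_eq_zero.1 h).symm
    have e : (fun m : ↥K => f x) = ∑ k : Fin (k + 1), fun m : ↥K =>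
        f (Fin.cons (m : G) (x ∘ Fin.succAbove k)) := funext fun m => by
      rw [Finset.sum_apply]
      exact (key m).symm
    have e2 : (fun m : ↥K => f x) = f x • (fun _ => 1) := funext fun m => by simp
    refine Eq.trans ?_ (show Φ (fun m : ↥K => f x) = f x by rw [e2, map_smul, h1]; simp)
    rw [e, map_sum]
    rfl

/-- A translation invariant mean modulo two. -/
def HasMean (K : Subgroup G) : Prop :=
  ∃ Φ : (↥K → ZMod 2) →ₗ[ZMod 2] ZMod 2,
    Φ (fun _ => 1) = 1 ∧ ∀ (g : ↥K) f, Φ (fun m => f (g * m)) = Φ f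

theorem HasMean.acyc {K : Subgroup G} (h : HasMean K) (k : ℕ) : Acyc K k :=
  let ⟨Φ, h1, h2⟩ := h
  acyc_of_mean Φ h1 h2 k

/-- Finite groups of odd order. -/
theorem hasMean_of_odd {K : Subgroup G} [Finite K] (h : Odd (Nat.card K)) : HasMean K := by
  cases nonempty_fintype K
  refine ⟨∑ m : ↥K, LinearMap.proj m, ?_, fun g f => ?_⟩
  · simp only [LinearMap.sum_apply, LinearMap.proj_apply]
    rw [Finset.sum_const, nsmul_one, Finset.card_univ]
    rw [Nat.card_eq_fintype_card] at h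
    exact ZMod.natCast_eq_one_iff_odd.2 h
  · simp only [LinearMap.sum_apply, LinearMap.proj_apply]
    exact Fintype.sum_equiv (Equiv.mulLeft g) _ _ fun m => rfl

/-- The trivial group. -/
theorem acyc_bot {K : Subgroup G} (h : K = ⊥) (k : ℕ) : Acyc K k := by
  subst h
  exact (hasMean_of_odd (by simp)).acyc k

/-- Groups in which every finite set lies in a finite subgroup of odd order. -/
theorem hasMean_of_locally {K : Subgroup G}
    (h : ∀ s : Finset ↥K, ∃ L : Subgroup ↥K, ↑s ⊆ (L : Set ↥K) ∧ Finite L ∧ Odd (Nat.card L)) :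
    HasMean K := by
  classical
  let W : Submodule (ZMod 2) (↥K → ZMod 2) :=
    Submodule.span (ZMod 2) {w | ∃ (g : ↥K) (f : ↥K → ZMod 2), w = (fun m => f (g * m)) + f}
  have hW : ∀ w ∈ W, ∃ s : Finset ↥K, ∀ (L : Subgroup ↥K) [Fintype L], ↑s ⊆ (L : Set ↥K) →
      ∑ m : L, w m = 0 := by
    intro w hw
    induction hw using Submodule.span_induction with
    | zero => exact ⟨∅, fun L _ _ => by simp⟩
    | mem w hw =>
      obtain ⟨g, f, rfl⟩ := hw
      refine ⟨{g}, fun L _ hL => ?_⟩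
      have hg : g ∈ L := hL (by simp)
      simp only [Pi.add_apply, Finset.sum_add_distrib]
      rw [Fintype.sum_equiv (Equiv.mulLeft (⟨g, hg⟩ : L)) (fun m : L => f (g * m))
        (fun m : L => f m) fun m => rfl]
      exact CharTwo.add_self_eq_zero _
    | add a b _ _ ha hb =>
      obtain ⟨s, hs⟩ := ha
      obtain ⟨t, ht⟩ := hb
      refine ⟨s ∪ t, fun L _ hL => ?_⟩
      rw [Finset.coe_union, Set.union_subset_iff] at hL
      simp only [Pi.add_apply, Finset.sum_add_distrib, hs L hL.1, ht L hL.2, add_zero]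
    | smul c a _ ha =>
      obtain ⟨s, hs⟩ := ha
      refine ⟨s, fun L _ hL => ?_⟩
      simp only [Pi.smul_apply, ← Finset.smul_sum, hs L hL, smul_zero]
  have h1 : (fun _ : ↥K => (1 : ZMod 2)) ∉ W := fun hm => by
    obtain ⟨s, hs⟩ := hW _ hm
    obtain ⟨L, hL, hfin, hodd⟩ := h s
    cases nonempty_fintype L
    have := hs L hL
    rw [Finset.sum_const, nsmul_one, Finset.card_univ] at this
    rw [Nat.card_eq_fintype_card] at hodd
    rw [ZMod.natCast_eq_one_iff_odd.2 hodd] at this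
    exact one_ne_zero this
  obtain ⟨Φ, hΦ, hΦW⟩ := Submodule.exists_dual_map_eq_bot_of_notMem h1 inferInstance
  refine ⟨Φ, (by decide : ∀ a : ZMod 2, a ≠ 0 → a = 1) _ hΦ, fun g f => ?_⟩
  have h2 : Φ ((fun m => f (g * m)) + f) ∈ W.map Φ :=
    Submodule.mem_map_of_mem (Submodule.subset_span ⟨g, f, rfl⟩)
  rw [hΦW, Submodule.mem_bot, map_add] at h2
  exact CharTwo.add_eq_zero.1 h2

/-- Abelian groups of odd prime exponent. -/
theorem hasMean_of_exponent {K : Subgroup G} {p : ℕ} [Fact p.Prime] (hp : p ≠ 2)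
    (hc : ∀ a ∈ K, ∀ b ∈ K, a * b = b * a) (he : ∀ a ∈ K, a ^ p = 1) : HasMean K := by
  refine hasMean_of_locally (fun s => ⟨Subgroup.closure ↑s, Subgroup.subset_closure, ?_⟩)
  letI : CommGroup ↥(Subgroup.closure (↑s : Set ↥K)) :=
    Subgroup.closureCommGroupOfComm fun a _ b _ => Subtype.ext (hc a.1 a.2 b.1 b.2)
  have hp' : IsPGroup p ↥(Subgroup.closure (↑s : Set ↥K)) := fun a =>
    ⟨1, Subtype.ext (Subtype.ext (by simpa using he a.1.1 a.1.2))⟩
  have : Finite (↑s : Set ↥K) := s.finite_toSet.to_subtype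
  have : Group.FG ↥(Subgroup.closure (↑s : Set ↥K)) := Group.closure_finite_fg _
  have hfin : Finite ↥(Subgroup.closure (↑s : Set ↥K)) :=
    CommGroup.finite_of_fg_isMulTorsion _ fun a => isOfFinOrder_iff_pow_eq_one.2
      ⟨p, (Fact.out : p.Prime).pos, Subtype.ext (Subtype.ext (by simpa using he a.1.1 a.1.2))⟩
  obtain ⟨r, hr⟩ := IsPGroup.iff_card.1 hp'
  exact ⟨hfin, hr ▸ ((Fact.out : p.Prime).odd_of_ne_two hp).pow⟩

end Vale.Agent.P067.Coh
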