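import Vale.Agent.P067.Coh.Action
import Vale.Agent.P067.Coh.Avg

/-!
The two uses of an exact complex: a group with finite stabilisers of odd order and a quotient
without cohomology is acyclic; a free quotient by an acyclic group has no cohomology.
-/

namespace Vale.Agent.P067.Coh

open scoped Pointwise

variable {G V : Type*} [Group G] [MulAction G V] [DecidableEq V] (X : Cx G V)

/-- The group of a complex with finite stabilisers of odd order is acyclic. -/
theorem acyc_top_of_complex {k : ℕ} (hex : ∀ a < k, Ex X a) (hq : ExInv X ⊤ k) {v : V}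
    (hv : X.face {v})
    (hstab : ∀ s, s.Nonempty → X.face s →
      Finite (MulAction.stabilizer G s) ∧ Odd (Nat.card (MulAction.stabilizer G s))) :
    Acyc (⊤ : Subgroup G) k := by
  have h1 : ∀ s, s.Nonempty → X.face s → ∀ b, Acyc ((⊤ : Subgroup G) ⊓ MulAction.stabilizer G s) b :=
    fun s hs hf b => by
      rw [top_inf_eq]
      obtain ⟨hfin, hodd⟩ := hstab s hs hf
      exact (hasMean_of_odd hodd).acyc b
  intro f hf hd
  refine cob_of_vertices X ⊤ hex hq (fun a b _ ha s hs => h1 s ?_ hs.1 b) hv hf hd
    fun w hw => h1 _ (Finset.singleton_nonempty w) hw k f (hf.mono le_top) hd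
  exact Finset.card_pos.1 (by rw [hs.2]; omega)

/-- Invariant cocycles under an acyclic group acting freely are invariant coboundaries. -/
theorem exInv_of_free (L : Subgroup G) {k : ℕ} (hex : ∀ b ≤ k, Ex X b) {v : V} (hv : X.face {v})
    (hfree : ∀ s, s.Nonempty → X.face s → L ⊓ MulAction.stabilizer G s = ⊥)
    (hL : ∀ a ≤ k, Acyc L a) : ExInv X L k := by
  refine exInv_of_acyc X L hex hv fun a b hab s hs => ?_
  rcases s.eq_empty_or_nonempty with rfl | hne
  · have h : L ⊓ MulAction.stabilizer G (∅ : Finset V) = L :=
      inf_eq_left.2 fun g _ => MulAction.mem_stabilizer_iff.2 (Finset.smul_finset_empty g)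
    rw [h]
    exact hL a (by omega)
  · exact acyc_bot (hfree s hne hs.1) a

end Vale.Agent.P067.Coh
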