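import Vale.Agent.P067.Coh.Stab
import Vale.Agent.P067.Coh.Complex
import Vale.Agent.P067.Coh.ChamberCx
import Vale.Agent.P067.Alg.Basic
import Vale.Agent.P067.Final

/-!
Part A: the finite complexes have no cohomology in low degrees, given that the infinite one has
none.
-/

namespace Vale.Agent.P067.Coh

open scoped Pointwise

variable {m p : ℕ} [Fact p.Prime]

theorem K_mem (T : Finset (Fin m)) (g : ↥(U m p)) :
    g ∈ K m p T ↔ ∀ t ∈ T, g ∈ K m p {t} := mem_K_iff_forall

theorem stab_img_eq (x : ↥(U m p)) (T : Finset (Fin m)) :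
    MulAction.stabilizer ↥(U m p) (img (K m p) x T) =
      (K m p T).map (MulAut.conj x).toMonoidHom := by
  ext g
  rw [mem_stab_img (K m p) K_mem, Subgroup.mem_map]
  refine ⟨fun h => ⟨_, h, by simp [MulAut.conj_apply, mul_assoc]⟩, ?_⟩
  rintro ⟨k, hk, rfl⟩
  simpa [MulAut.conj_apply, mul_assoc] using hk

/-- The groups `U` are acyclic where the infinite complex is exact. -/
theorem acyc_U (hp : p ≠ 2) (hm : 1 ≤ m) {k : ℕ}
    (hex : ∀ a < k, Acyclic (cosetRel (K m p)) (a + 1)) (hk : k + 2 ≤ m) :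
    Acyc (U m p) k := by
  classical
  have : NeZero m := ⟨by omega⟩
  set X := chamberCx (K m p)
  have hv : X.face {cls (K m p) 1 (0 : Fin m)} := ⟨1, {0}, (Finset.image_singleton _ _).symm⟩
  have h : Acyc (⊤ : Subgroup ↥(U m p)) k := by
    refine acyc_top_of_complex X (fun a ha => ex_of_acyclic (K m p) K_mem (hex a ha)) ?_ hv ?_
    · refine exInv_of_types X ⊤ Sigma.fst ?_ (fun _ _ _ => rfl) ?_
        (fun T _ => ⟨img (K m p) 1 T, ⟨1, T, rfl⟩, img_fst (K m p) 1 T⟩) 0
      · rintro _ ⟨x, T, rfl⟩ a ha b hb hab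
        obtain ⟨t, -, rfl⟩ := Finset.mem_image.1 (Finset.mem_coe.1 ha)
        obtain ⟨u, -, rfl⟩ := Finset.mem_image.1 (Finset.mem_coe.1 hb)
        exact congrArg (cls (K m p) x) hab
      · rintro _ _ ⟨x, T, rfl⟩ ⟨y, S, rfl⟩ he
        rw [img_fst, img_fst] at he
        subst he
        exact ⟨y * x⁻¹, Subgroup.mem_top _, by rw [smul_img, inv_mul_cancel_right]⟩
    · rintro s hs ⟨x, T, rfl⟩
      have hT : T.Nonempty := by simpa [img] using hs
      rw [stab_img_eq]
      have := finite_K (p := p) hT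
      refine ⟨Finite.of_equiv _ ((K m p T).equivMapOfInjective _
        (MulEquiv.injective (MulAut.conj x))).toEquiv, ?_⟩
      rw [← Nat.card_congr ((K m p T).equivMapOfInjective _
        (MulEquiv.injective (MulAut.conj x))).toEquiv]
      exact odd_card_K hp hT
  have h2 := h.map (ι := (U m p).subtype) Subtype.val_injective
  rwa [← MonoidHom.range_eq_map, Subgroup.range_subtype] at h2

/-- Part A from the acyclicity of the infinite complex. -/
theorem vanish_of_z (hZ : ZStatement) : VanishStatement := by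
  classical
  intro d
  refine ⟨lo d + d + 5, fun n hn => ?_⟩
  choose P hP using hZ
  refine ⟨3 + ∑ m ∈ Finset.range (n + 1), P m, fun p hpp hp s hs m hm1 hmd => ?_⟩
  have hp2 : p ≠ 2 := by omega
  have hPle : ∀ j ≤ n, P j ≤ p := fun j hj => by
    have := Finset.single_le_sum (f := P) (fun i _ => Nat.zero_le (P i))
      (show j ∈ Finset.range (n + 1) from Finset.mem_range.2 (Nat.lt_succ_of_le hj))
    omega
  obtain ⟨b, rfl⟩ : ∃ b, m = b + 1 := ⟨m - 1, by omega⟩
  have hlok : ∀ k, 1 ≤ k → k + 5 ≤ lo k := by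
    intro k hk
    obtain ⟨j, rfl⟩ : ∃ j, k = j + 1 := ⟨k - 1, by omega⟩
    simp only [lo]
    omega
  have hU : ∀ k j, 1 ≤ k → k ≤ d → lo k ≤ j → j ≤ n → Acyc (U j p) k := by
    intro k j hk hkd hlj hjn
    have := hlok k hk
    exact acyc_U hp2 (by omega)
      (fun a ha => hP j p hpp (hPle j hjn) (a + 1) (by omega) (by omega)) (by omega)
  have hstable := acyc_congrKer (D := d) (n := n) p hp2 (s := s) (by omega)
    (fun j => ⟨inferInstance, odd_card_Omega hp2 s⟩) hU
  have hGam : ∀ a ≤ b, Acyc (Gam n p s) a := fun a ha => by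
    refine Acyc.comap (ι := (U n p).subtype) Subtype.val_injective ?_
    rw [Gam, Subgroup.subgroupOf_map_subtype,
      inf_eq_left.2 (congrKer_le_U p n (by omega))]
    exact hstable a (by omega) n (by have := lo_mono (show a ≤ d by omega); omega) le_rfl
  have : NeZero n := ⟨by omega⟩
  have hv : (chamberCx (K n p)).face {cls (K n p) 1 (0 : Fin n)} :=
    ⟨1, {0}, (Finset.image_singleton _ _).symm⟩
  refine acyclic_of_exInv (K n p) K_mem (Gam n p s) ?_
  refine exInv_of_free (chamberCx (K n p)) (Gam n p s)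
    (fun c hc => ex_of_acyclic (K n p) K_mem
      (hP n p hpp (hPle n le_rfl) (c + 1) (by omega) (by omega))) hv ?_ hGam
  rintro s' hs' ⟨x, T, rfl⟩
  have hT : T.Nonempty := by simpa [img] using hs'
  refine (Subgroup.eq_bot_iff_forall _).2 fun g hg => ?_
  obtain ⟨hgG, hgS⟩ := Subgroup.mem_inf.1 hg
  exact conj_mem_K_eq_one (by omega) hT ((mem_stab_img (K n p) K_mem).1 hgS) hgG

end Vale.Agent.P067.Coh
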