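import Mathlib

/-!
The staircase in a double complex: a class on one edge with exact rows and columns on the way comes
from the corner.
-/

namespace Vale.Agent.P067.Coh

variable {D : ℕ → ℕ → Type*} [∀ p q, AddCommGroup (D p q)]
variable (dh : ∀ p q, D p q →+ D (p + 1) q) (dv : ∀ p q, D p q →+ D p (q + 1))
variable (hcomm : ∀ p q x, dh p (q + 1) (dv p q x) = dv (p + 1) q (dh p q x))
variable (hh : ∀ p q x, dh (p + 1) q (dh p q x) = 0)
variable (hvv : ∀ p q x, dv p (q + 1) (dv p q x) = 0)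

include hcomm hh hvv

/-- One staircase. -/
theorem zigzag : ∀ q p : ℕ,
    (∀ a b, a + b = p + q → p ≤ a → ∀ x : D (a + 1) b, dh (a + 1) b x = 0 → ∃ y, dh a b y = x) →
    (∀ a b, a + b + 1 = p + q + 2 → p + 2 ≤ a → ∀ x : D a (b + 1), dv a (b + 1) x = 0 →
      ∃ y, dv a b y = x) →
    (∀ x : D (p + q + 2) 0, dv (p + q + 2) 0 x = 0 → x = 0) →
    ∀ x : D (p + 1) q, dv (p + 2) q (dh (p + 1) q x) = 0 →
      ∃ y : D p q, dv (p + 1) q x = dv (p + 1) q (dh p q y) := by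
  intro q
  induction q with
  | zero =>
    intro p hrow _ hbot x hx
    obtain ⟨y, hy⟩ := hrow p 0 rfl le_rfl x (hbot _ hx)
    exact ⟨y, by rw [hy]⟩
  | succ q ih =>
    intro p hrow hcol hbot x hx
    obtain ⟨w, hw⟩ := hcol (p + 2) q (by omega) le_rfl _ hx
    have hw2 : dv (p + 3) q (dh (p + 2) q w) = 0 := by
      rw [← hcomm, hw]
      exact hh _ _ _
    obtain ⟨y', hy'⟩ := ih (p + 1) (fun a b hab ha => hrow a b (by omega) (by omega))
      (fun a b hab ha => hcol a b (by omega) (by omega))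
      (by rw [show p + 1 + q + 2 = p + (q + 1) + 2 by omega]; exact hbot) w hw2
    have h0 : dh (p + 1) (q + 1) (x - dv (p + 1) q y') = 0 := by
      rw [map_sub, hcomm, ← hy', hw, sub_self]
    obtain ⟨y, hy⟩ := hrow p (q + 1) rfl le_rfl _ h0
    refine ⟨y, ?_⟩
    rw [hy, map_sub, hvv, sub_zero]

/-- A class on the first edge which starts to climb comes from below. -/
theorem zigzag_edge (q : ℕ)
    (hrow : ∀ a b, a + b = q → ∀ x : D (a + 1) b, dh (a + 1) b x = 0 → ∃ y, dh a b y = x)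
    (hcol : ∀ a b, a + b + 1 = q + 2 → 2 ≤ a → ∀ x : D a (b + 1), dv a (b + 1) x = 0 →
      ∃ y, dv a b y = x)
    (hbot : ∀ x : D (q + 2) 0, dv (q + 2) 0 x = 0 → x = 0)
    (hinj : ∀ x : D 0 (q + 1), dh 0 (q + 1) x = 0 → x = 0)
    (f : D 0 (q + 1)) (h : D 1 q) (hfh : dh 0 (q + 1) f = dv 1 q h) :
    ∃ y : D 0 q, dv 0 q y = f := by
  have h2 : dv 2 q (dh 1 q h) = 0 := by
    rw [← hcomm, ← hfh]
    exact hh _ _ _
  obtain ⟨y, hy⟩ := zigzag dh dv hcomm hh hvv q 0 (fun a b hab _ => hrow a b (by omega))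
    (fun a b hab ha => hcol a b (by omega) (by omega)) (by rw [Nat.zero_add]; exact hbot) h h2
  refine ⟨y, sub_eq_zero.1 (hinj _ ?_)⟩
  rw [map_sub, hcomm, hfh, ← hy, sub_self]

end Vale.Agent.P067.Coh
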