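import Vale.Agent.P067.Coh.Cochain
import Vale.Agent.P067.Coh.Zigzag

/-!
The double complex of a group acting on a simplicial complex. The complex is given by its faces,
the empty face included, so that augmentations need no separate treatment.
-/

namespace Vale.Agent.P067.Coh

open scoped Pointwise

variable {G V : Type*} [Group G] [MulAction G V] [DecidableEq V]

/-- A family of faces closed under subsets and stable under the group. -/
structure Cx (G V : Type*) [Group G] [MulAction G V] [DecidableEq V] where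
  /-- The faces. -/
  face : Finset V → Prop
  down : ∀ {s t : Finset V}, face s → t ⊆ s → face t
  smul_mem : ∀ (g : G) {s : Finset V}, face s → face (g • s)

/-- Faces with `p` vertices. -/
def Cx.Cell (X : Cx G V) (p : ℕ) (s : Finset V) : Prop := X.face s ∧ s.card = p

theorem Cx.cell_smul (X : Cx G V) {p : ℕ} (g : G) {s : Finset V} :
    X.Cell p (g • s) ↔ X.Cell p s := by
  refine ⟨fun h => ?_, fun h => ⟨X.smul_mem g h.1, by rw [Finset.card_smul_finset, h.2]⟩⟩
  refine ⟨?_, by rw [← h.2, Finset.card_smul_finset]⟩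
  simpa using X.smul_mem g⁻¹ h.1

theorem Cx.Cell.erase {X : Cx G V} {p : ℕ} {s : Finset V} (h : X.Cell (p + 1) s) {v : V}
    (hv : v ∈ s) : X.Cell p (s.erase v) :=
  ⟨X.down h.1 (Finset.erase_subset v s), by rw [Finset.card_erase_of_mem hv, h.2]; rfl⟩

variable {M : Type*} [AddCommGroup M]

open scoped Classical in
/-- The coboundary of the complex. -/
noncomputable def dX (X : Cx G V) (p : ℕ) (φ : Finset V → M) (s : Finset V) : M :=
  if X.Cell (p + 1) s then ∑ v ∈ s, φ (s.erase v) else 0

theorem dX_cell (X : Cx G V) {p : ℕ} (φ : Finset V → M) {s : Finset V} (h : X.Cell (p + 1) s) :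
    dX X p φ s = ∑ v ∈ s, φ (s.erase v) := by
  rw [dX, if_pos h]

theorem dX_not (X : Cx G V) {p : ℕ} (φ : Finset V → M) {s : Finset V}
    (h : ¬X.Cell (p + 1) s) : dX X p φ s = 0 := by
  rw [dX, if_neg h]

theorem dX_add (X : Cx G V) (p : ℕ) (φ ψ : Finset V → M) :
    dX X p (φ + ψ) = dX X p φ + dX X p ψ := by
  funext s
  by_cases h : X.Cell (p + 1) s
  · simp only [Pi.add_apply, dX_cell X _ h, Finset.sum_add_distrib]
  · simp only [Pi.add_apply, dX_not X _ h, add_zero]

theorem dX_dX (X : Cx G V) (p : ℕ) (φ : Finset V → M) (h2 : ∀ m : M, m + m = 0) :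
    dX X (p + 1) (dX X p φ) = 0 := by
  funext s
  by_cases h : X.Cell (p + 2) s
  · rw [dX_cell X _ h, Finset.sum_congr rfl fun v hv => dX_cell X φ (h.erase hv), Pi.zero_apply]
    calc ∑ v ∈ s, ∑ u ∈ s.erase v, φ ((s.erase v).erase u)
        = ∑ a ∈ s.offDiag, φ ((s.erase a.1).erase a.2) := by
          rw [Finset.sum_sigma' s (fun v => s.erase v)]
          exact Finset.sum_nbij' (fun a => (a.1, a.2)) (fun a => ⟨a.1, a.2⟩)
            (fun a ha => by
              simp only [Finset.mem_coe, Finset.mem_sigma, Finset.mem_erase] at ha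
              simp only [Finset.mem_coe, Finset.mem_offDiag]
              exact ⟨ha.1, ha.2.2, ha.2.1.symm⟩)
            (fun a ha => by
              simp only [Finset.mem_coe, Finset.mem_offDiag] at ha
              simp only [Finset.mem_coe, Finset.mem_sigma, Finset.mem_erase]
              exact ⟨ha.1, ha.2.2.symm, ha.2.1⟩)
            (fun a _ => rfl) (fun a _ => rfl) (fun a _ => rfl)
      _ = 0 := Finset.sum_involution (fun a _ => (a.2, a.1))
          (fun a _ => by rw [Finset.erase_right_comm]; exact h2 _)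
          (fun a ha _ he => (Finset.mem_offDiag.1 ha).2.2 (congrArg Prod.snd he))
          (fun a ha => by
            simp only [Finset.mem_offDiag] at ha ⊢
            exact ⟨ha.2.1, ha.1, ha.2.2.symm⟩)
          (fun a _ => rfl)
  · rw [dX_not X _ h, Pi.zero_apply]

theorem dX_smul (X : Cx G V) (p : ℕ) (φ : Finset V → M) (g : G) (s : Finset V) :
    dX X p φ (g • s) = dX X p (fun t => φ (g • t)) s := by
  by_cases h : X.Cell (p + 1) s
  · rw [dX_cell X _ ((X.cell_smul g).2 h), dX_cell X _ h, Finset.smul_finset_def,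
      Finset.sum_image fun a _ b _ hab => MulAction.injective g hab]
    refine Finset.sum_congr rfl fun v _ => congrArg φ ?_
    rw [Finset.smul_finset_def, Finset.image_erase (MulAction.injective g)]
  · rw [dX_not X _ h, dX_not X _ fun hc => h ((X.cell_smul g).1 hc)]

/-- Exactness of the complex on faces with `p + 1` vertices. -/
def Ex (X : Cx G V) (p : ℕ) : Prop :=
  ∀ φ : Finset V → ZMod 2, (∀ s, ¬X.Cell (p + 1) s → φ s = 0) → dX X (p + 1) φ = 0 →
    ∃ ψ : Finset V → ZMod 2, (∀ s, ¬X.Cell p s → ψ s = 0) ∧ dX X p ψ = φ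

/-- Exactness among invariant cochains, that is of the quotient complex. -/
def ExInv (X : Cx G V) (K : Subgroup G) (p : ℕ) : Prop :=
  ∀ φ : Finset V → ZMod 2, (∀ s, ¬X.Cell (p + 1) s → φ s = 0) →
    (∀ g ∈ K, ∀ s, φ (g • s) = φ s) → dX X (p + 1) φ = 0 →
    ∃ ψ : Finset V → ZMod 2, (∀ s, ¬X.Cell p s → ψ s = 0) ∧
      (∀ g ∈ K, ∀ s, ψ (g • s) = ψ s) ∧ dX X p ψ = φ

/-- The terms of the double complex. -/
def dsub (X : Cx G V) (K : Subgroup G) (p q : ℕ) : AddSubgroup (Finset V → Fn G q) where
  carrier := {F | (∀ s, ¬X.Cell p s → F s = 0) ∧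
    ∀ g ∈ K, ∀ s x, F (g • s) ((g * ·) ∘ x) = F s x}
  zero_mem' := ⟨fun _ _ => rfl, fun _ _ _ _ => rfl⟩
  add_mem' ha hb := ⟨fun s hs => by simp [ha.1 s hs, hb.1 s hs],
    fun g hg s x => congrArg₂ (· + ·) (ha.2 g hg s x) (hb.2 g hg s x)⟩
  neg_mem' ha := ⟨fun s hs => by simp [ha.1 s hs],
    fun g hg s x => congrArg Neg.neg (ha.2 g hg s x)⟩

variable (X : Cx G V) (K : Subgroup G)

theorem dX_apply {q : ℕ} (p : ℕ) (F : Finset V → Fn G q) (s : Finset V) (x : Fin q → G) :
    dX X p F s x = dX X p (fun t => F t x) s := by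
  by_cases h : X.Cell (p + 1) s
  · rw [dX_cell X _ h, dX_cell X _ h, Finset.sum_apply]
  · rw [dX_not X _ h, dX_not X _ h, Pi.zero_apply]

/-- The horizontal differential. -/
noncomputable def hor (p q : ℕ) : dsub X K p q →+ dsub X K (p + 1) q :=
  AddMonoidHom.mk' (fun F => ⟨dX X p F.1, fun s hs => dX_not X _ hs, fun g hg s x => by
      rw [dX_apply, dX_apply, dX_smul]
      exact congrArg (fun u => dX X p u s) (funext fun t => F.2.2 g hg t x)⟩)
    fun F F' => Subtype.ext (dX_add X p F.1 F'.1)

/-- The vertical differential. -/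
noncomputable def ver (p q : ℕ) : dsub X K p q →+ dsub X K p (q + 1) :=
  AddMonoidHom.mk' (fun F => ⟨fun s => del (F.1 s), fun s hs => by
      show del (F.1 s) = 0
      rw [F.2.1 s hs, del_zero],
    fun g hg s x => Finset.sum_congr rfl fun k _ => F.2.2 g hg s (x ∘ Fin.succAbove k)⟩)
    fun F F' => Subtype.ext (funext fun s => del_add (F.1 s) (F'.1 s))

theorem hor_ver (p q : ℕ) (F : dsub X K p q) :
    hor X K p (q + 1) (ver X K p q F) = ver X K (p + 1) q (hor X K p q F) := by
  refine Subtype.ext (funext fun s => ?_)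
  show dX X p (fun t => del (F.1 t)) s = del (dX X p F.1 s)
  by_cases h : X.Cell (p + 1) s
  · rw [dX_cell X _ h, dX_cell X _ h, del_sum]
  · rw [dX_not X _ h, dX_not X _ h, del_zero]

theorem hor_hor (p q : ℕ) (F : dsub X K p q) : hor X K (p + 1) q (hor X K p q F) = 0 :=
  Subtype.ext (dX_dX X p F.1 fun m => funext fun _ => CharTwo.add_self_eq_zero _)

theorem ver_ver (p q : ℕ) (F : dsub X K p q) : ver X K p (q + 1) (ver X K p q F) = 0 :=
  Subtype.ext (funext fun s => del_del (F.1 s))

/-- Rows are exact where the complex is. -/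
theorem row_exact {p : ℕ} (hX : Ex X p) (q : ℕ) (F : dsub X K (p + 1) (q + 1))
    (hF : hor X K (p + 1) (q + 1) F = 0) :
    ∃ H : dsub X K p (q + 1), hor X K p (q + 1) H = F := by
  obtain ⟨r, hrK, hr⟩ := exists_retraction K
  have hφ : ∀ x, dX X (p + 1) (fun s => F.1 s x) = 0 := fun x => funext fun s => by
    rw [← dX_apply X (p + 1) F.1 s x]
    exact congrFun (congrFun (congrArg Subtype.val hF) s) x
  choose ψ hψ hdψ using fun x : Fin (q + 1) → G =>
    hX (fun s => F.1 s x) (fun s hs => by rw [F.2.1 s hs]; rfl) (hφ x)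
  refine ⟨⟨fun s x => ψ (((r (x 0))⁻¹ * ·) ∘ x) ((r (x 0))⁻¹ • s), fun s hs => funext fun x =>
    hψ _ _ fun hc => hs ((X.cell_smul _).1 hc), fun g hg s x => ?_⟩,
    Subtype.ext (funext fun s => funext fun x => ?_)⟩
  · have h0 : r (g * x 0) = g * r (x 0) := hr g hg _
    simp only [Function.comp_apply, h0, mul_inv_rev, mul_smul, inv_smul_smul]
    congr 1
    funext i
    simp [mul_assoc]
  · show dX (M := Fn G (q + 1)) X p _ s x = F.1 s x
    rw [dX_apply]
    set k := r (x 0)
    have h1 := congrFun (hdψ ((k⁻¹ * ·) ∘ x)) (k⁻¹ • s)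
    rw [dX_smul] at h1
    refine h1.trans ?_
    exact F.2.2 k⁻¹ (inv_mem (hrK _)) s x

/-- Columns are exact at a cochain which is a coboundary on each stabiliser. -/
theorem col_lift {p q : ℕ} (F : dsub X K p (q + 1))
    (h : ∀ s, X.Cell p s → Cob (K ⊓ MulAction.stabilizer G s) (F.1 s)) :
    ∃ H : dsub X K p q, ver X K p q H = F := by
  let rep : Finset V → Finset V := fun s => (Quotient.mk (MulAction.orbitRel K (Finset V)) s).out
  have hrep : ∀ s, ∃ k : G, k ∈ K ∧ k • rep s = s := fun s => by
    obtain ⟨k, hk⟩ := MulAction.orbitRel_apply.1 ((MulAction.orbitRel K (Finset V)).symm'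
      (Quotient.exact (Quotient.out_eq (Quotient.mk (MulAction.orbitRel K (Finset V)) s))))
    exact ⟨k.1, k.2, hk⟩
  have hrep_smul : ∀ g ∈ K, ∀ s, rep (g • s) = rep s := fun g hg s =>
    congrArg Quotient.out (Quotient.sound (MulAction.orbitRel_apply.2 ⟨⟨g, hg⟩, rfl⟩))
  choose kk hkK hk using hrep
  have hall : ∀ s, ∃ u : Fn G q, Inv (K ⊓ MulAction.stabilizer G s) u ∧ del u = F.1 s ∧
      (¬X.Cell p s → u = 0) := fun s => by
    by_cases hs : X.Cell p s
    · obtain ⟨u, hu, hd⟩ := h s hs
      exact ⟨u, hu, hd, fun h' => absurd hs h'⟩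
    · exact ⟨0, Inv.zero, by rw [del_zero, F.2.1 s hs], fun _ => rfl⟩
  choose u hu hdu hu0 using hall
  refine ⟨⟨fun s x => u (rep s) (((kk s)⁻¹ * ·) ∘ x), fun s hs => funext fun x => ?_,
    fun g hg s x => ?_⟩, Subtype.ext (funext fun s => funext fun x => ?_)⟩
  · show u (rep s) _ = 0
    rw [hu0 (rep s) fun hc => hs (by rw [← hk s]; exact (X.cell_smul _).2 hc)]
    rfl
  · have hj : (kk (g • s))⁻¹ * g * kk s ∈ K ⊓ MulAction.stabilizer G (rep s) := by
      refine Subgroup.mem_inf.2 ⟨mul_mem (mul_mem (inv_mem (hkK _)) hg) (hkK _), ?_⟩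
      rw [MulAction.mem_stabilizer_iff, mul_smul, mul_smul, hk]
      have h2 := hk (g • s)
      rw [hrep_smul g hg] at h2
      exact inv_smul_eq_iff.2 h2.symm
    show u (rep (g • s)) _ = _
    rw [hrep_smul g hg]
    refine Eq.trans (congrArg (u (rep s)) ?_) (hu (rep s) _ hj _)
    funext i
    simp [mul_assoc]
  · show del (fun y => u (rep s) (((kk s)⁻¹ * ·) ∘ y)) x = F.1 s x
    refine (congrFun (congrArg del (rfl : _ = pull ((kk s)⁻¹ * ·) (u (rep s)))) x).trans ?_
    rw [← pull_del, hdu]
    have h2 := F.2.2 (kk s)⁻¹ (inv_mem (hkK s)) s x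
    rwa [show (kk s)⁻¹ • s = rep s from inv_smul_eq_iff.2 (hk s).symm] at h2

/-- In degree zero cohomology always vanishes. -/
theorem acyc_zero (L : Subgroup G) : Acyc L 0 := by
  intro f _ hd
  refine ⟨fun _ => f ![1], fun _ _ _ => rfl, funext fun x => ?_⟩
  have h := congrFun hd (Fin.cons 1 x)
  rw [del_cons, Pi.zero_apply, del_cons_zero] at h
  rw [del_cons_zero]
  exact (CharTwo.add_eq_zero.1 h).symm

/-- Rows are injective at the empty face. -/
theorem row_inj {v : V} (hv : X.face {v}) (q : ℕ) (F : dsub X K 0 q)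
    (h : hor X K 0 q F = 0) : F = 0 := by
  refine Subtype.ext (funext fun s => ?_)
  by_cases hs : X.Cell 0 s
  · have h1 := congrFun (congrArg Subtype.val h) {v}
    have e : dX X 0 F.1 {v} = F.1 s := by
      rw [dX_cell X _ ⟨hv, Finset.card_singleton v⟩, Finset.sum_singleton,
        Finset.card_eq_zero.1 hs.2]
      simp
    exact e ▸ h1
  · exact F.2.1 s hs

/-- Columns are injective at the bottom. -/
theorem col_bot (p : ℕ) (F : dsub X K p 0) (h : ver X K p 0 F = 0) : F = 0 := by
  refine Subtype.ext (funext fun s => funext fun x => ?_)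
  have h1 := congrFun (congrFun (congrArg Subtype.val h) s) ![1]
  have e : del (F.1 s) ![(1 : G)] = F.1 s x := by
    rw [del_cons_zero, Subsingleton.elim x ![]]
  exact e ▸ h1

/-- A cocycle of `K` which is a coboundary on the vertex stabilisers is a coboundary, when the
complex is exact, so is its quotient, and the stabilisers of the larger faces are acyclic. -/
theorem cob_of_vertices {k : ℕ} (hex : ∀ a < k, Ex X a) (hq : ExInv X K k)
    (hstab : ∀ a b, a + b + 1 = k + 2 → 2 ≤ a → ∀ s, X.Cell a s →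
      Acyc (K ⊓ MulAction.stabilizer G s) b)
    {v : V} (hv : X.face {v}) {f : Fn G (k + 1)} (hf : Inv K f) (hd : del f = 0)
    (hvert : ∀ w, X.face {w} → Cob (K ⊓ MulAction.stabilizer G ({w} : Finset V)) f) :
    Cob K f := by
  classical
  have h0 : ∀ g : G, ∀ s : Finset V, X.Cell 0 (g • s) ↔ X.Cell 0 s := fun g s => X.cell_smul g
  let F0 : dsub X K 0 (k + 1) :=
    ⟨fun s => if X.Cell 0 s then f else 0, fun s hs => if_neg hs, fun g hg s x => by
      simp only [h0]
      split
      · exact hf g hg x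
      · rfl⟩
  have hF0 : ver X K 0 (k + 1) F0 = 0 := Subtype.ext (funext fun s => by
    show del (F0.1 s) = 0
    simp only [F0]
    split
    · exact hd
    · exact del_zero)
  obtain ⟨h, hh⟩ := col_lift X K (hor X K 0 (k + 1) F0) fun s hs => by
    obtain ⟨w, rfl⟩ := Finset.card_eq_one.1 hs.2
    show Cob _ (dX X 0 F0.1 {w})
    rw [dX_cell X _ hs, Finset.sum_singleton, Finset.erase_singleton]
    simp only [F0, if_pos (show X.Cell 0 (∅ : Finset V) from
      ⟨X.down hs.1 (Finset.empty_subset _), Finset.card_empty⟩)]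
    exact hvert w hs.1
  obtain ⟨y, hy⟩ := zigzag_edge (D := fun p q => dsub X K p q) (hor X K) (ver X K)
    (hor_ver X K) (hor_hor X K) (ver_ver X K) k
    (fun a b hab x hx => by
      cases b with
      | succ b => exact row_exact X K (hex a (by omega)) b x hx
      | zero =>
        obtain rfl : a = k := by omega
        obtain ⟨ψ, hψ, hψi, hψd⟩ := hq (fun s => x.1 s ![])
          (fun s hs => by rw [x.2.1 s hs]; rfl)
          (fun g hg s => by
            rw [← x.2.2 g hg s ![]]
            exact congrArg _ (Subsingleton.elim _ _))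
          (funext fun s => by
            rw [← dX_apply X (a + 1) x.1 s ![]]
            exact congrFun (congrFun (congrArg Subtype.val hx) s) _)
        refine ⟨⟨fun s _ => ψ s, fun s hs => funext fun _ => hψ s hs,
          fun g hg s _ => hψi g hg s⟩, Subtype.ext (funext fun s => funext fun y => ?_)⟩
        show dX (M := Fn G 0) X a _ s y = x.1 s y
        rw [dX_apply, Subsingleton.elim y ![]]
        exact congrFun hψd s)
    (fun a b hab ha x hx => col_lift X K x fun s hs => hstab a b hab ha s hs (x.1 s)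
      (fun g hg z => by
        have := x.2.2 g hg.1 s z
        rwa [MulAction.mem_stabilizer_iff.1 hg.2] at this)
      (congrFun (congrArg Subtype.val hx) s))
    (col_bot X K (k + 2)) (row_inj X K hv (k + 1)) F0 h hh.symm
  have hc : X.Cell 0 (∅ : Finset V) := ⟨X.down hv (Finset.empty_subset _), Finset.card_empty⟩
  refine ⟨y.1 ∅, fun g hg z => ?_, ?_⟩
  · have := y.2.2 g hg ∅ z
    rwa [Finset.smul_finset_empty] at this
  · refine (congrFun (congrArg Subtype.val hy) ∅).trans ?_
    simp only [F0, if_pos hc]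

/-- Invariant cocycles of an exact complex are coboundaries of invariant cochains when the group
and the stabilisers of the faces are acyclic. -/
theorem exInv_of_acyc {k : ℕ} (hex : ∀ b ≤ k, Ex X b) {v : V} (hv : X.face {v})
    (hstab : ∀ a b, a + b = k → ∀ s, X.Cell b s →
      Acyc (K ⊓ MulAction.stabilizer G s) a) : ExInv X K k := by
  intro φ hφ hinv hdφ
  let f : dsub X K (k + 1) 0 := ⟨fun s _ => φ s, fun s hs => funext fun _ => hφ s hs,
    fun g hg s _ => hinv g hg s⟩
  have hf : hor X K (k + 1) 0 f = 0 := Subtype.ext (funext fun s => funext fun x => by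
    show dX X (k + 1) f.1 s x = 0
    rw [dX_apply]
    exact congrFun hdφ s)
  obtain ⟨h, hh⟩ := row_exact X K (hex k le_rfl) 0 (ver X K (k + 1) 0 f)
    (by rw [hor_ver, hf, map_zero])
  obtain ⟨y, hy⟩ := zigzag_edge (D := fun p q => dsub X K q p)
    (fun p q => ver X K q p) (fun p q => hor X K q p)
    (fun p q x => (hor_ver X K q p x).symm) (fun p q => ver_ver X K q p)
    (fun p q => hor_hor X K q p) k
    (fun a b hab x hx => col_lift X K x fun s hs => hstab a b hab s hs (x.1 s)
      (fun g hg z => by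
        have := x.2.2 g hg.1 s z
        rwa [MulAction.mem_stabilizer_iff.1 hg.2] at this)
      (congrFun (congrArg Subtype.val hx) s))
    (fun a b hab ha x hx => by
      obtain ⟨a', rfl⟩ : ∃ a', a = a' + 1 := ⟨a - 1, by omega⟩
      exact row_exact X K (hex b (by omega)) a' x hx)
    (row_inj X K hv (k + 2)) (col_bot X K (k + 1)) f h hh.symm
  refine ⟨fun s => y.1 s ![], fun s hs => by simp only [y.2.1 s hs, Pi.zero_apply],
    fun g hg s => ?_,
    funext fun s => ?_⟩
  · show y.1 (g • s) ![] = y.1 s ![]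
    rw [← y.2.2 g hg s ![]]
    exact congrArg _ (Subsingleton.elim _ _)
  · rw [← dX_apply X k y.1 s ![]]
    exact congrFun (congrFun (congrArg Subtype.val hy) s) ![]

end Vale.Agent.P067.Coh
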