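import Vale.Agent.P067.Coh.Cochain

/-!
Transfer from a normal subgroup of finite odd index on whose classes the group acts trivially, and
transport back along injective homomorphisms.
-/

namespace Vale.Agent.P067.Coh

variable {G G' : Type*} [Group G] [Group G']

theorem cob_sum {ι : Type*} (s : Finset ι) {K : Subgroup G} {q : ℕ} {f : ι → Fn G (q + 1)}
    (h : ∀ i ∈ s, Cob K (f i)) : Cob K (∑ i ∈ s, f i) :=
  Finset.sum_induction _ (Cob K) (fun _ _ => Cob.add) Cob.zero h

/-- A normal subgroup of finite odd index is acyclic when the group is and acts trivially on its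
classes. -/
theorem acyc_of_index {L U : Subgroup G} (hLU : L ≤ U)
    (hnorm : ∀ u ∈ U, ∀ g ∈ L, u * g * u⁻¹ ∈ L) [Finite (↥U ⧸ L.subgroupOf U)]
    (hodd : Odd (Nat.card (↥U ⧸ L.subgroupOf U))) {k : ℕ} (hU : Acyc U k)
    (htriv : ∀ g ∈ U, ∀ f : Fn G (k + 1), Inv L f → del f = 0 →
      Cob L (pull (g * ·) f + f)) : Acyc L k := by
  classical
  intro f hf hd
  cases nonempty_fintype (↥U ⧸ L.subgroupOf U)
  let rep : ↥U ⧸ L.subgroupOf U → G := fun c => ((c.out : ↥U) : G)
  have hrep : ∀ c, rep c ∈ U := fun c => (c.out : ↥U).2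
  set F : Fn G (k + 1) := ∑ c, pull ((rep c)⁻¹ * ·) f with hF
  have hdF : del F = 0 := by
    rw [hF, del_sum]
    exact Finset.sum_eq_zero fun c _ => by rw [← pull_del, hd]; rfl
  have hFi : Inv U F := by
    intro u hu x
    simp only [hF, Finset.sum_apply, pull]
    refine Fintype.sum_equiv (Equiv.mk (fun c => (⟨u, hu⟩ : ↥U)⁻¹ • c)
      (fun c => (⟨u, hu⟩ : ↥U) • c) (fun c => smul_inv_smul _ _) (fun c => inv_smul_smul _ _))
      _ _ fun c => ?_
    set c' := (⟨u, hu⟩ : ↥U)⁻¹ • c
    have hcc : ((⟨u, hu⟩ : ↥U) * c'.out : ↥U ⧸ L.subgroupOf U) = c := by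
      rw [← smul_eq_mul, MulAction.Quotient.mk_smul_out]
      exact smul_inv_smul _ c
    have hγ : (rep c)⁻¹ * u * rep c' ∈ L := by
      have h := QuotientGroup.eq.1 ((QuotientGroup.out_eq' c).trans hcc.symm)
      rw [Subgroup.mem_subgroupOf] at h
      simpa [rep, mul_assoc] using h
    rw [show ((rep c)⁻¹ * ·) ∘ (u * ·) ∘ x =
      (((rep c)⁻¹ * u * rep c') * ·) ∘ ((rep c')⁻¹ * ·) ∘ x from
        funext fun i => by simp [mul_assoc]]
    exact hf _ hγ _
  obtain ⟨h, hh, hhd⟩ := hU F hFi hdF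
  have h1 : Cob L (∑ c, (pull ((rep c)⁻¹ * ·) f + f)) :=
    cob_sum _ fun c _ => htriv _ (inv_mem (hrep c)) f hf hd
  have h2 : Cob L F := ⟨h, hh.mono hLU, hhd⟩
  have h3 : (∑ c, (pull ((rep c)⁻¹ * ·) f + f)) + F = f := by
    rw [Finset.sum_add_distrib, ← hF, Finset.sum_const, Finset.card_univ]
    rw [Nat.card_eq_fintype_card] at hodd
    have hnf : Fintype.card (↥U ⧸ L.subgroupOf U) • f = f := by
      funext x
      rw [Pi.smul_apply, nsmul_eq_mul, ZMod.natCast_eq_one_iff_odd.2 hodd, one_mul]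
    rw [hnf]
    funext x
    simp only [Pi.add_apply]
    linear_combination (norm := ring_nf) (0 : ZMod 2) = 0
    rw [show (2 : ZMod 2) = 0 from rfl]
    ring
  exact h3 ▸ h1.add h2

/-- Acyclicity comes back along injective homomorphisms. -/
theorem Acyc.comap {ι : G' →* G} (hι : Function.Injective ι) {K : Subgroup G'} {k : ℕ}
    (hK : Acyc (K.map ι) k) : Acyc K k := by
  intro f hf hd
  obtain ⟨r, hrR, hr⟩ := exists_retraction ι.range
  choose s hs using fun x => MonoidHom.mem_range.1 (hrR x)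
  have hs' : ∀ g x, s (ι g * x) = g * s x := fun g x => by
    apply hι
    rw [map_mul, hs, hs, hr _ ⟨g, rfl⟩]
  obtain ⟨h, hh, hhd⟩ := hK (pull s f)
    (hf.pull (c := Function.invFun ι) (fun g hg => by
      obtain ⟨g', hg', rfl⟩ := Subgroup.mem_map.1 hg
      rwa [Function.leftInverse_invFun hι]) fun g hg x => by
      obtain ⟨g', -, rfl⟩ := Subgroup.mem_map.1 hg
      rw [Function.leftInverse_invFun hι, hs'])
    (by rw [← pull_del, hd]; rfl)
  have h1 : Cob K (pull ι (pull s f)) :=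
    ⟨pull ι h, hh.pull (c := ι) (fun g hg => Subgroup.mem_map_of_mem ι hg)
      fun g _ x => map_mul ι g x, by rw [← pull_del, hhd]⟩
  have h2 := cob_compare (φ := id) (ψ := fun x => s (ι x)) (c := id) (fun g hg => hg)
    (fun g _ x => rfl) (fun g _ x => by
      show s (ι (g * x)) = g * s (ι x)
      rw [map_mul, hs']) hf hd
  refine (show pull id f + pull (fun x => s (ι x)) f + pull ι (pull s f) = f from
    funext fun x => ?_) ▸ h2.add h1
  simp [pull, Function.comp_def, add_assoc, CharTwo.add_self_eq_zero]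

end Vale.Agent.P067.Coh
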