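import Vale.Agent.P067.Coh.Inflation
import Vale.Agent.P067.Coh.Avg
import Vale.Agent.P067.Coh.Transfer
import Vale.Agent.P067.Frames.Stab
import Vale.Agent.P067.Frames.Lift
import Vale.Agent.P067.Group

/-!
Blocks of congruence subgroups: the stabilisers of frames, and elementary transvections act
trivially on the classes restricted to a block.
-/

namespace Vale.Agent.P067.Coh

open Matrix

variable {ι : Type} [Fintype ι] [DecidableEq ι] {R : Type} [CommRing R] (c : R)

/-- Congruent matrices fixing the basis vectors in `J`. -/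
def fixJ (J : Finset ι) : Subgroup (SpecialLinearGroup ι R) := Frames.cong c ⊓ Frames.stab J

/-- The congruent matrices fixing `J` with trivial block. -/
def kerJ (J : Finset ι) : Subgroup (SpecialLinearGroup ι R) :=
  Frames.cong c ⊓ (Frames.proj J).ker.map (Frames.stab J).subtype

/-- The congruent block matrices. -/
def blockJ (J : Finset ι) : Subgroup (SpecialLinearGroup ι R) :=
  (Frames.cong c).map (Frames.blockHom J)

variable {c}

theorem mem_kerJ {J : Finset ι} {g : SpecialLinearGroup ι R} :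
    g ∈ kerJ c J ↔
      g ∈ Frames.cong c ∧ ∃ h : g ∈ Frames.stab J, Frames.proj J ⟨g, h⟩ = 1 := by
  rw [kerJ, Subgroup.mem_inf, Subgroup.mem_map]
  refine and_congr Iff.rfl ⟨?_, fun ⟨h, h1⟩ => ⟨⟨g, h⟩, h1, rfl⟩⟩
  rintro ⟨y, hy, rfl⟩
  exact ⟨y.2, hy⟩

theorem kerJ_le (J : Finset ι) : kerJ c J ≤ fixJ c J := fun _ hg =>
  ⟨(mem_kerJ.1 hg).1, (mem_kerJ.1 hg).2.1⟩

theorem blockJ_le (J : Finset ι) : blockJ c J ≤ fixJ c J := by
  rintro _ ⟨g, hg, rfl⟩
  exact ⟨(Frames.blockHom_cong J).2 hg, Frames.blockHom_mem_stab J g⟩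

theorem kerJ_normal (J : Finset ι) :
    ∀ a ∈ fixJ c J, ∀ m ∈ kerJ c J, a⁻¹ * m * a ∈ kerJ c J := by
  intro a ha m hm
  obtain ⟨hmc, hms, hm1⟩ := mem_kerJ.1 hm
  refine mem_kerJ.2 ⟨mul_mem (mul_mem (inv_mem ha.1) hmc) ha.1,
    mul_mem (mul_mem (inv_mem ha.2) hms) ha.2, ?_⟩
  show Frames.proj J (⟨a, ha.2⟩⁻¹ * ⟨m, hms⟩ * ⟨a, ha.2⟩) = 1
  rw [map_mul, map_mul, hm1, mul_one, map_inv, inv_mul_cancel]

theorem fixJ_decomp (J : Finset ι) :
    ∀ a ∈ fixJ c J, ∃ m ∈ kerJ c J, ∃ b ∈ blockJ c J, m * b = a := by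
  intro a ha
  obtain ⟨n, b, hn, hnc, hbc, he⟩ := Frames.stab_decomp (J := J) ha.2 ha.1
  exact ⟨n, mem_kerJ.2 ⟨hnc, n.2, hn⟩, _, Subgroup.mem_map_of_mem _ hbc, he.symm⟩

theorem hasMean_kerJ {p : ℕ} [Fact p.Prime] [CharP R p] (hp : p ≠ 2) (J : Finset ι) :
    HasMean (kerJ c J) := by
  refine hasMean_of_exponent hp (fun a ha b hb => ?_) (fun a ha => ?_)
  · obtain ⟨-, has, ha1⟩ := mem_kerJ.1 ha
    obtain ⟨-, hbs, hb1⟩ := mem_kerJ.1 hb
    exact congrArg Subtype.val (Frames.proj_ker_comm J ha1 hb1)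
  · obtain ⟨-, has, ha1⟩ := mem_kerJ.1 ha
    exact congrArg Subtype.val (Frames.proj_ker_pow J ha1 p)

/-- A cocycle on the stabiliser of `J` which is a coboundary on the block is a coboundary. -/
theorem cob_fixJ {p : ℕ} [Fact p.Prime] [CharP R p] (hp : p ≠ 2) (J : Finset ι) {q : ℕ}
    {f : Fn (SpecialLinearGroup ι R) (q + 1)} (hf : Inv (fixJ c J) f) (hd : del f = 0)
    (hB : Cob (blockJ c J) f) : Cob (fixJ c J) f := by
  obtain ⟨Φ, h1, hΦ⟩ := hasMean_kerJ (c := c) hp J
  exact cob_of_complement Φ h1 hΦ (kerJ_le J) (kerJ_normal J) (fixJ_decomp J) hf hd hB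

theorem acyc_fixJ {p : ℕ} [Fact p.Prime] [CharP R p] (hp : p ≠ 2) (J : Finset ι) {k : ℕ}
    (hB : Acyc (blockJ c J) k) : Acyc (fixJ c J) k := fun f hf hd =>
  cob_fixJ hp J hf hd (hB f (hf.mono (blockJ_le J)) hd)

/-- The automorphism inverse transpose. -/
def theta : SpecialLinearGroup ι R →* SpecialLinearGroup ι R where
  toFun g := ⟨(g⁻¹).1ᵀ, by rw [det_transpose]; exact (g⁻¹).2⟩
  map_one' := Subtype.ext (by simp)
  map_mul' g h := Subtype.ext (by
    show ((g * h)⁻¹).1ᵀ = (g⁻¹).1ᵀ * (h⁻¹).1ᵀ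
    rw [← transpose_mul]
    exact congrArg (fun z : SpecialLinearGroup ι R => z.1ᵀ) (_root_.mul_inv_rev g h))

theorem theta_coe (g : SpecialLinearGroup ι R) : (theta g).1 = (g⁻¹).1ᵀ := rfl

theorem theta_theta (g : SpecialLinearGroup ι R) : theta (theta g) = g := by
  refine Subtype.ext ?_
  rw [theta_coe, ← map_inv, theta_coe, inv_inv, transpose_transpose]

theorem theta_cong {g : SpecialLinearGroup ι R} (hg : g ∈ Frames.cong c) :
    theta g ∈ Frames.cong c := by
  refine Frames.mem_cong.2 fun a b => ?_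
  rw [theta_coe, transpose_apply, show (1 : Matrix ι ι R) a b = (1 : Matrix ι ι R) b a by
    simp only [Matrix.one_apply, eq_comm]]
  exact Frames.mem_cong.1 (inv_mem hg) b a

theorem theta_blockHom (J : Finset ι) (g : SpecialLinearGroup (Frames.Out J) R) :
    theta (Frames.blockHom J g) = Frames.blockHom J (theta g) := by
  refine Subtype.ext (Matrix.ext fun a b => ?_)
  rw [theta_coe, transpose_apply, ← map_inv]
  by_cases h : a ∈ J ∨ b ∈ J
  · rw [Frames.blockHom_in J _ h, Frames.blockHom_in J _ (Or.comm.1 h)]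
    simp only [Matrix.one_apply, eq_comm]
  · rw [not_or] at h
    exact (Frames.blockHom_out J g⁻¹ ⟨b, h.2⟩ ⟨a, h.1⟩).trans
      (Frames.blockHom_out J (theta g) ⟨a, h.1⟩ ⟨b, h.2⟩).symm

/-- The elements whose action on every class is invisible on the block of `J`. -/
def silent (c : R) (J : Finset ι) (q : ℕ) : Subgroup (SpecialLinearGroup ι R) where
  carrier := {g | ∀ f : Fn (SpecialLinearGroup ι R) (q + 1), Inv (Frames.cong c) f →
    del f = 0 → Cob (blockJ c J) (pull (g * ·) f + f)}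
  one_mem' := fun f _ _ => by
    have e : pull ((1 : SpecialLinearGroup ι R) * ·) f + f = 0 := funext fun x => by
      simp [pull, Function.comp_def, CharTwo.add_self_eq_zero]
    rw [e]; exact Cob.zero
  mul_mem' := fun {g h} hg hh f hf hd => by
    have h1 := hg f hf hd
    have hfi : Inv (Frames.cong c) (pull (g * ·) f) :=
      hf.pull (c := fun a => g * a * g⁻¹)
        (fun a ha => (Frames.cong_normal c).conj_mem a ha g) fun a _ x => by simp [mul_assoc]
    have h2 := hh _ hfi (by rw [← pull_del, hd]; rfl)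
    refine (show pull (h * ·) (pull (g * ·) f) + pull (g * ·) f + (pull (g * ·) f + f) =
      pull (g * h * ·) f + f from funext fun x => ?_) ▸ h2.add h1
    simp only [Pi.add_apply, pull, Function.comp_def, mul_assoc]
    linear_combination (norm := ring_nf) (0 : ZMod 2) = 0
    rw [show (2 : ZMod 2) = 0 from rfl]
    ring
  inv_mem' := fun {g} hg f hf hd => by
    have hfi : Inv (Frames.cong c) (pull (g⁻¹ * ·) f) :=
      hf.pull (c := fun a => g⁻¹ * a * g⁻¹⁻¹)
        (fun a ha => (Frames.cong_normal c).conj_mem a ha g⁻¹) fun a _ x => by simp [mul_assoc]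
    have h1 := hg _ hfi (by rw [← pull_del, hd]; rfl)
    refine (show pull (g * ·) (pull (g⁻¹ * ·) f) + pull (g⁻¹ * ·) f = pull (g⁻¹ * ·) f + f from
      funext fun x => ?_) ▸ h1
    simp only [Pi.add_apply, pull, Function.comp_def, inv_mul_cancel_left, add_comm]

variable {p : ℕ} [Fact p.Prime] [CharP R p]

/-- Twisting by an element fixing `e j` with trivial block. -/
theorem twist_col (hp : p ≠ 2) (J : Finset ι) {g : SpecialLinearGroup ι R}
    (hg : g ∈ Frames.stab J) (hg1 : Frames.proj J ⟨g, hg⟩ = 1) :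
    ∀ b ∈ blockJ c J, g * b * g⁻¹ ∈ fixJ c J ∧ b⁻¹ * (g * b * g⁻¹) ∈ kerJ c J := by
  intro b hb
  obtain ⟨hbc, hbs⟩ := blockJ_le J hb
  have hconj : g * b * g⁻¹ ∈ Frames.cong c := (Frames.cong_normal c).conj_mem b hbc g
  have hs : g * b * g⁻¹ ∈ Frames.stab J := mul_mem (mul_mem hg hbs) (inv_mem hg)
  refine ⟨⟨hconj, hs⟩, mem_kerJ.2 ⟨mul_mem (inv_mem hbc) hconj, mul_mem (inv_mem hbs) hs, ?_⟩⟩
  show Frames.proj J (⟨b, hbs⟩⁻¹ * (⟨g, hg⟩ * ⟨b, hbs⟩ * ⟨g, hg⟩⁻¹)) = 1
  simp only [map_mul, map_inv, hg1, one_mul, inv_one, mul_one, inv_mul_cancel]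

theorem silent_of_col (hp : p ≠ 2) (J : Finset ι) {g : SpecialLinearGroup ι R}
    (hg : g ∈ Frames.stab J) (hg1 : Frames.proj J ⟨g, hg⟩ = 1) (q : ℕ) :
    g ∈ silent c J q ∧ theta g ∈ silent c J q := by
  obtain ⟨Φ, h1, hΦ⟩ := hasMean_kerJ (c := c) hp J
  have ht := twist_col (c := c) hp J hg hg1
  refine ⟨fun f hf hd => cob_twist Φ h1 hΦ (A := fixJ c J) inf_le_left ht (blockJ_le J) hf hd,
    fun f hf hd => ?_⟩
  have hf' : Inv (Frames.cong c) (pull theta f) :=
    hf.pull (c := theta) (fun a ha => theta_cong ha) fun a _ x => map_mul theta a x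
  have h2 := cob_twist Φ h1 hΦ (A := fixJ c J) inf_le_left ht (blockJ_le J) hf'
    (by rw [← pull_del, hd]; rfl)
  have hblock : ∀ b ∈ blockJ c J, theta b ∈ blockJ c J := by
    rintro _ ⟨b, hb, rfl⟩
    rw [theta_blockHom]
    exact Subgroup.mem_map_of_mem _ (theta_cong hb)
  have h3 := h2.pull (φ := fun x => theta x) (c := theta) hblock fun a _ x => map_mul theta a x
  refine (funext fun x => ?_ :
    pull (fun x => theta x) (pull (g * ·) (pull theta f) + pull theta f) =
      pull (theta g * ·) f + f) ▸ h3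
  simp only [Pi.add_apply, pull, Function.comp_def, map_mul, theta_theta]

theorem elem_comm {a j b : ι} (haj : a ≠ j) (hjb : j ≠ b) (hab : a ≠ b) (x : R) :
    Frames.elem a j haj x * Frames.elem j b hjb 1 * Frames.elem a j haj (-x) *
      Frames.elem j b hjb (-1) = Frames.elem a b hab x := by
  refine Subtype.ext (ext_of_mulVec_single fun i => ?_)
  simp only [Frames.mulVec_mul, Frames.elem_mulVec]
  funext l
  simp only [Frames.e, Pi.add_apply, Pi.smul_apply, Pi.single_apply, smul_eq_mul]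
  split_ifs <;> simp_all <;> ring

theorem proj_elem {j b : ι} (hjb : j ≠ b) (x : R) :
    ∃ h : Frames.elem j b hjb x ∈ Frames.stab {j}, Frames.proj {j} ⟨_, h⟩ = 1 := by
  have h : Frames.elem j b hjb x ∈ Frames.stab {j} := Frames.mem_stab.2 fun l hl => by
    rw [Finset.mem_singleton] at hl
    rw [Frames.elem_mulVec, hl]
    simp [Frames.e, Pi.single_eq_of_ne hjb.symm]
  refine ⟨h, Subtype.ext (Matrix.ext fun u v => ?_)⟩
  have hu : u.1 ≠ j := fun hu => u.2 (Finset.mem_singleton.2 hu)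
  have hcol := congrFun (Frames.elem_mulVec j b hjb x (Pi.single v.1 1)) u.1
  rw [mulVec_single_one] at hcol
  rw [Frames.proj_apply]
  refine hcol.trans ?_
  simp [Frames.e, Pi.single_eq_of_ne hu, Matrix.one_apply, Pi.single_apply, Subtype.ext_iff]
  split_ifs <;> simp [hu]

theorem theta_elem {j b : ι} (hjb : j ≠ b) (x : R) :
    theta (Frames.elem j b hjb x) = Frames.elem b j hjb.symm (-x) := by
  have hinv : (Frames.elem j b hjb x)⁻¹ = Frames.elem j b hjb (-x) := by
    refine inv_eq_of_mul_eq_one_right (Subtype.ext (ext_of_mulVec_single fun i => ?_))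
    simp only [Frames.mulVec_mul, Frames.elem_mulVec]
    funext l
    simp only [Frames.e, Pi.add_apply, Pi.smul_apply, Pi.single_apply, smul_eq_mul,
      SpecialLinearGroup.coe_one, one_mulVec]
    split_ifs <;> simp_all <;> ring
  refine Subtype.ext (Matrix.ext fun u v => ?_)
  rw [theta_coe, transpose_apply, hinv]
  have h1 := congrFun (Frames.elem_mulVec j b hjb (-x) (Pi.single u 1)) v
  have h2 := congrFun (Frames.elem_mulVec b j hjb.symm (-x) (Pi.single v 1)) u
  rw [mulVec_single_one] at h1 h2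
  refine h1.trans (Eq.trans ?_ h2.symm)
  simp only [Frames.e, Pi.add_apply, Pi.smul_apply, Pi.single_apply, smul_eq_mul]
  clear h1 h2
  split_ifs <;> subst_vars <;> simp_all [Ne.symm]

theorem elemGroup_le_silent (hp : p ≠ 2) (j : ι) (q : ℕ) :
    Frames.elemGroup ≤ silent c {j} q := by
  rw [Frames.elemGroup, Subgroup.closure_le]
  rintro _ ⟨a, b, hab, x, rfl⟩
  have hrow : ∀ (b : ι) (h : j ≠ b) (x : R), Frames.elem j b h x ∈ silent c {j} q := by
    intro b h x
    obtain ⟨hs, h1⟩ := proj_elem h x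
    exact (silent_of_col hp {j} hs h1 q).1
  have hcol : ∀ (a : ι) (h : a ≠ j) (x : R), Frames.elem a j h x ∈ silent c {j} q := by
    intro a h x
    obtain ⟨hs, h1⟩ := proj_elem h.symm (-x)
    have := (silent_of_col (c := c) hp {j} hs h1 q).2
    rwa [theta_elem, neg_neg] at this
  rcases eq_or_ne a j with rfl | haj
  · exact hrow b hab x
  rcases eq_or_ne b j with rfl | hbj
  · exact hcol a hab x
  rw [SetLike.mem_coe, ← elem_comm haj hbj.symm hab x]
  exact mul_mem (mul_mem (mul_mem (hcol a haj x) (hrow b hbj.symm 1)) (hcol a haj _))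
    (hrow b hbj.symm _)

end Vale.Agent.P067.Coh
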