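import Mathlib

/-!
Homogeneous cochains of subgroups of a group with values in the field with two elements. A cochain
of a subgroup `K` with `q` arguments is a function on `q`-tuples of the whole group which is
invariant under left translations by `K`; restriction to a smaller subgroup is the same function.
-/

namespace Vale.Agent.P067.Coh

variable {G G' : Type*}

/-- Functions of `q` arguments. -/
abbrev Fn (G : Type*) (q : ℕ) : Type _ := (Fin q → G) → ZMod 2

/-- The coboundary: the sum over all ways to omit one argument. -/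
def del {q : ℕ} (f : Fn G q) : Fn G (q + 1) := fun x => ∑ k, f (x ∘ Fin.succAbove k)

/-- Fix the first argument. -/
def cur {q : ℕ} (f : Fn G (q + 1)) (a : G) : Fn G q := fun x => f (Fin.cons a x)

/-- Pull back along a map of the arguments. -/
def pull {q : ℕ} (φ : G' → G) (f : Fn G q) : Fn G' q := fun x => f (φ ∘ x)

theorem cons_comp_succ {q : ℕ} (a : G) (x : Fin (q + 1) → G) (k : Fin (q + 1)) :
    (Fin.cons a x : Fin (q + 2) → G) ∘ Fin.succAbove k.succ =
      Fin.cons a (x ∘ Fin.succAbove k) := by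
  funext i
  refine Fin.cases ?_ (fun j => ?_) i <;> simp

theorem del_cons {q : ℕ} (f : Fn G (q + 1)) (a : G) (x : Fin (q + 1) → G) :
    del f (Fin.cons a x) = f x + del (cur f a) x := by
  rw [del, Fin.sum_univ_succ]
  refine congrArg₂ (· + ·) (congrArg f (funext fun i => by simp)) ?_
  exact Finset.sum_congr rfl fun k _ => congrArg f (cons_comp_succ a x k)

theorem del_cons_zero (f : Fn G 0) (x : Fin 1 → G) : del f x = f ![] := by
  rw [del, Fin.sum_univ_one]
  exact congrArg f (Subsingleton.elim _ _)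

theorem cur_del {q : ℕ} (f : Fn G (q + 1)) (a : G) : cur (del f) a = f + del (cur f a) :=
  funext fun x => del_cons f a x

theorem del_add {q : ℕ} (f g : Fn G q) : del (f + g) = del f + del g :=
  funext fun _ => Finset.sum_add_distrib

theorem del_zero {q : ℕ} : del (0 : Fn G q) = 0 :=
  funext fun _ => Finset.sum_const_zero

theorem del_sum {ι : Type*} {q : ℕ} (s : Finset ι) (f : ι → Fn G q) :
    del (∑ i ∈ s, f i) = ∑ i ∈ s, del (f i) := by
  funext x
  simp only [del, Finset.sum_apply]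
  exact Finset.sum_comm

theorem pull_del {q : ℕ} (φ : G' → G) (f : Fn G q) : pull φ (del f) = del (pull φ f) := rfl

theorem del_del {q : ℕ} (f : Fn G q) : del (del f) = 0 := by
  induction q with
  | zero =>
    funext x
    show ∑ k, del f (x ∘ Fin.succAbove k) = 0
    rw [Fin.sum_univ_two, del_cons_zero, del_cons_zero]
    exact CharTwo.add_self_eq_zero _
  | succ q ih =>
    funext x
    rw [← Fin.cons_self_tail x, del_cons, cur_del, del_add, ih, add_zero]
    exact CharTwo.add_self_eq_zero _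

/-- The prism between two maps of the arguments. -/
def prism : {q : ℕ} → (G' → G) → (G' → G) → Fn G (q + 1) → Fn G' q
  | 0, _, _, _ => 0
  | _ + 1, φ, ψ, f => fun x =>
      f (Fin.cons (φ (x 0)) (Fin.cons (ψ (x 0)) (ψ ∘ Fin.tail x))) +
        prism φ ψ (cur f (φ (x 0))) (Fin.tail x)

theorem prism_cons {q : ℕ} (φ ψ : G' → G) (f : Fn G (q + 2)) (a : G') (x : Fin q → G') :
    prism φ ψ f (Fin.cons a x) =
      pull ψ (cur (cur f (φ a)) (ψ a)) x + prism φ ψ (cur f (φ a)) x := by
  simp [prism, pull, cur]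

theorem cur_prism {q : ℕ} (φ ψ : G' → G) (f : Fn G (q + 2)) (a : G') :
    cur (prism φ ψ f) a = pull ψ (cur (cur f (φ a)) (ψ a)) + prism φ ψ (cur f (φ a)) :=
  funext fun x => prism_cons φ ψ f a x

theorem prism_add {q : ℕ} (φ ψ : G' → G) (f g : Fn G (q + 1)) :
    prism φ ψ (f + g) = prism φ ψ f + prism φ ψ g := by
  induction q with
  | zero => simp [prism]
  | succ q ih =>
    funext x
    have h : cur (f + g) (φ (x 0)) = cur f (φ (x 0)) + cur g (φ (x 0)) := rfl
    simp only [prism, Pi.add_apply, h, ih]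
    abel

/-- The homotopy formula. -/
theorem prism_spec {q : ℕ} (φ ψ : G' → G) (f : Fn G (q + 1)) :
    del (prism φ ψ f) + prism φ ψ (del f) = pull φ f + pull ψ f := by
  induction q with
  | zero =>
    funext x
    rw [← Fin.cons_self_tail x, Subsingleton.elim (Fin.tail x) ![]]
    simp only [Pi.add_apply, prism, pull, del_zero, Pi.zero_apply, add_zero, zero_add,
      Fin.comp_cons, cur, del_cons, Fin.cons_zero, Fin.tail_cons]
    rw [del_cons_zero, Subsingleton.elim (ψ ∘ (![] : Fin 0 → G')) ![],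
      Subsingleton.elim (φ ∘ (![] : Fin 0 → G')) ![], add_comm]
    rfl
  | succ q ih =>
    funext x
    rw [← Fin.cons_self_tail x]
    have h1 := congrFun (ih (cur f (φ (x 0)))) (Fin.tail x)
    simp only [Pi.add_apply, pull] at h1
    simp only [Pi.add_apply, del_cons, cur_prism, del_add, prism_cons, cur_del, prism_add,
      pull, ← pull_del, cur, Fin.comp_cons] at h1 ⊢
    linear_combination (norm := ring_nf) h1
    rw [show (2 : ZMod 2) = 0 from rfl]
    ring

section Group

variable [Group G] [Group G']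

/-- Invariance under left translations by `K`. -/
def Inv (K : Subgroup G) {q : ℕ} (f : Fn G q) : Prop :=
  ∀ g ∈ K, ∀ x, f ((g * ·) ∘ x) = f x

/-- A coboundary of an invariant cochain. -/
def Cob (K : Subgroup G) {q : ℕ} (f : Fn G (q + 1)) : Prop :=
  ∃ h : Fn G q, Inv K h ∧ del h = f

/-- The cohomology of `K` in degree `k` vanishes. -/
def Acyc (K : Subgroup G) (k : ℕ) : Prop :=
  ∀ f : Fn G (k + 1), Inv K f → del f = 0 → Cob K f

theorem Inv.mono {K L : Subgroup G} (h : K ≤ L) {q : ℕ} {f : Fn G q} (hf : Inv L f) :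
    Inv K f := fun g hg x => hf g (h hg) x

theorem Inv.add {K : Subgroup G} {q : ℕ} {f g : Fn G q} (hf : Inv K f) (hg : Inv K g) :
    Inv K (f + g) := fun a ha x => congrArg₂ (· + ·) (hf a ha x) (hg a ha x)

theorem Inv.zero {K : Subgroup G} {q : ℕ} : Inv K (0 : Fn G q) := fun _ _ _ => rfl

theorem Inv.del {K : Subgroup G} {q : ℕ} {f : Fn G q} (hf : Inv K f) : Inv K (del f) :=
  fun g hg x => Finset.sum_congr rfl fun k _ => hf g hg (x ∘ Fin.succAbove k)

theorem Inv.pull {K : Subgroup G'} {L : Subgroup G} {φ : G' → G} {c : G' → G}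
    (hc : ∀ g ∈ K, c g ∈ L) (hφ : ∀ g ∈ K, ∀ x, φ (g * x) = c g * φ x) {q : ℕ} {f : Fn G q}
    (hf : Inv L f) : Inv K (Coh.pull φ f) := fun g hg x => by
  have h : φ ∘ (g * ·) ∘ x = (c g * ·) ∘ φ ∘ x := funext fun i => hφ g hg (x i)
  exact (congrArg f h).trans (hf _ (hc g hg) _)

theorem Cob.mono {K L : Subgroup G} (h : K ≤ L) {q : ℕ} {f : Fn G (q + 1)} (hf : Cob L f) :
    Cob K f := hf.imp fun _ hu => ⟨hu.1.mono h, hu.2⟩

theorem Cob.add {K : Subgroup G} {q : ℕ} {f g : Fn G (q + 1)} (hf : Cob K f) (hg : Cob K g) :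
    Cob K (f + g) :=
  let ⟨u, hu, huf⟩ := hf
  let ⟨v, hv, hvg⟩ := hg
  ⟨u + v, hu.add hv, by rw [del_add, huf, hvg]⟩

theorem Cob.zero {K : Subgroup G} {q : ℕ} : Cob K (0 : Fn G (q + 1)) := ⟨0, Inv.zero, del_zero⟩

theorem Cob.pull {K : Subgroup G'} {L : Subgroup G} {φ : G' → G} {c : G' → G}
    (hc : ∀ g ∈ K, c g ∈ L) (hφ : ∀ g ∈ K, ∀ x, φ (g * x) = c g * φ x) {q : ℕ}
    {f : Fn G (q + 1)} (hf : Cob L f) : Cob K (Coh.pull φ f) :=
  let ⟨u, hu, huf⟩ := hf
  ⟨Coh.pull φ u, hu.pull hc hφ, by rw [← pull_del, huf]⟩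

theorem prism_smul {q : ℕ} {φ ψ : G' → G} {g : G'} {c : G} (hφ : ∀ x, φ (g * x) = c * φ x)
    (hψ : ∀ x, ψ (g * x) = c * ψ x) (f : Fn G (q + 1)) (x : Fin q → G') :
    prism φ ψ f ((g * ·) ∘ x) = prism φ ψ (Coh.pull (c * ·) f) x := by
  induction q with
  | zero => rfl
  | succ q ih =>
    rw [← Fin.cons_self_tail x, Fin.comp_cons, prism_cons, prism_cons, hφ, hψ, ih]
    have h : ψ ∘ (g * ·) ∘ Fin.tail x = (c * ·) ∘ ψ ∘ Fin.tail x := funext fun i => hψ _
    simp only [Coh.pull, cur, h, Fin.comp_cons]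
    refine congrArg₂ (· + ·) rfl (congrArg (fun u => prism φ ψ u _) (funext fun y => ?_))
    simp only [Coh.pull, cur, Fin.comp_cons]

/-- Two equivariant maps of the arguments give cohomologous pullbacks. -/
theorem cob_compare {K : Subgroup G'} {L : Subgroup G} {φ ψ : G' → G} {c : G' → G}
    (hc : ∀ g ∈ K, c g ∈ L) (hφ : ∀ g ∈ K, ∀ x, φ (g * x) = c g * φ x)
    (hψ : ∀ g ∈ K, ∀ x, ψ (g * x) = c g * ψ x) {q : ℕ} {f : Fn G (q + 1)}
    (hf : Inv L f) (hd : del f = 0) : Cob K (Coh.pull φ f + Coh.pull ψ f) := by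
  refine ⟨prism φ ψ f, fun g hg x => ?_, ?_⟩
  · rw [prism_smul (hφ g hg) (hψ g hg)]
    exact congrArg (fun u => prism φ ψ u x) (funext fun y => hf _ (hc g hg) y)
  · have h := prism_spec φ ψ f
    rw [hd] at h
    have h0 : prism φ ψ (0 : Fn G (q + 2)) = 0 := by
      have := prism_add φ ψ (0 : Fn G (q + 2)) 0
      simpa using this
    simpa [h0] using h

/-- A retraction of the group onto a subgroup, equivariant on the left. -/
theorem exists_retraction (K : Subgroup G) :
    ∃ r : G → G, (∀ x, r x ∈ K) ∧ ∀ g ∈ K, ∀ x, r (g * x) = g * r x := by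
  classical
  let rep : G → G := fun x => (Quotient.mk (QuotientGroup.rightRel K) x).out
  refine ⟨fun x => x * (rep x)⁻¹, fun x => ?_, fun g hg x => ?_⟩
  · exact QuotientGroup.rightRel_apply.1
      (Quotient.exact (Quotient.out_eq (Quotient.mk (QuotientGroup.rightRel K) x)))
  · have h : rep (g * x) = rep x := congrArg Quotient.out (Quotient.sound
      (QuotientGroup.rightRel_apply.2 (by simpa [mul_inv_rev, ← mul_assoc] using hg)))
    show g * x * (rep (g * x))⁻¹ = g * (x * (rep x)⁻¹)
    rw [h, mul_assoc]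

/-- Vanishing of cohomology passes along injective homomorphisms. -/
theorem Acyc.map {ι : G' →* G} (hι : Function.Injective ι) {K : Subgroup G'} {k : ℕ}
    (hK : Acyc K k) : Acyc (K.map ι) k := by
  intro f hf hd
  obtain ⟨r, hrK, hr⟩ := exists_retraction (K.map ι)
  choose s hsK hs using fun x => Subgroup.mem_map.1 (hrK x)
  have hseq : ∀ g ∈ K.map ι, ∀ x, s (g * x) = Function.invFun ι g * s x := by
    intro g hg x
    obtain ⟨g', -, rfl⟩ := Subgroup.mem_map.1 hg
    apply hι
    rw [map_mul, hs, hr _ hg, hs, Function.leftInverse_invFun hι]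
  have h1 := cob_compare (c := id) (φ := id) (ψ := fun x => ι (s x)) (fun g hg => hg)
    (fun g _ x => rfl) (fun g hg x => by
      show ι (s (g * x)) = g * ι (s x)
      rw [hs, hs, hr g hg]) hf hd
  obtain ⟨h, hh, hhd⟩ := hK (pull ι f) (hf.pull (c := ι) (fun g hg => Subgroup.mem_map_of_mem ι hg)
    fun g _ x => map_mul ι g x) (by rw [← pull_del, hd]; rfl)
  have h2 : Cob (K.map ι) (pull s (pull ι f)) :=
    ⟨pull s h, hh.pull (c := Function.invFun ι) (fun g hg => by
      obtain ⟨g', hg', rfl⟩ := Subgroup.mem_map.1 hg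
      rwa [Function.leftInverse_invFun hι]) hseq, by rw [← pull_del, hhd]⟩
  have h3 := h1.add h2
  have e : pull id f + pull (fun x => ι (s x)) f + pull s (pull ι f) = f := by
    funext x
    exact add_assoc _ _ _ |>.trans (by simp [pull, Function.comp_def, CharTwo.add_self_eq_zero])
  rwa [e] at h3

end Group

end Vale.Agent.P067.Coh
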