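import Vale.Agent.P067.Coh.Action

/-!
If bounded sets of vertices have common cone points then the complex is exact.
-/

namespace Vale.Agent.P067.Coh

open scoped Pointwise

variable {G V : Type*} [Group G] [MulAction G V] [DecidableEq V]

/-- The number of vertices used by the filling of a face. -/
def bd : ℕ → ℕ
  | 0 => 1
  | p + 1 => (p + 1) * (1 + bd p) + 1

/-- Bounded sets of vertices have common cone points. -/
def HasCones (X : Cx G V) (N p : ℕ) : Prop :=
  ∀ W : Finset V, W.card ≤ N → (∀ v ∈ W, X.face {v}) →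
    ∃ w : V, X.face {w} ∧
      ∀ t ⊆ W, X.face t → t.card ≤ p → w ∉ t ∧ X.face (insert w t)

variable (X : Cx G V)

/-- The double sum over ordered pairs of vertices of a face vanishes. -/
theorem sum_erase_erase (f : Finset V → ZMod 2) (s : Finset V) :
    ∑ v ∈ s, ∑ u ∈ s.erase v, f ((s.erase v).erase u) = 0 := by
  classical
  rw [Finset.sum_sigma' s (fun v => s.erase v)]
  refine Finset.sum_involution (fun a _ => ⟨a.2, a.1⟩)
    (fun a _ => by rw [Finset.erase_right_comm]; exact CharTwo.add_self_eq_zero _)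
    (fun a ha _ he => ?_) (fun a ha => ?_) (fun a _ => rfl)
  · simp only [Finset.mem_sigma, Finset.mem_erase] at ha
    exact ha.2.1 (congrArg Sigma.fst he)
  · simp only [Finset.mem_sigma, Finset.mem_erase] at ha ⊢
    exact ⟨ha.2.2, Ne.symm ha.2.1, ha.1⟩

/-- Fillings of the faces, as functionals on cochains. -/
theorem exists_fill {b : V} (hb : X.face {b}) {N P : ℕ} (hc : HasCones X N P)
    (hN : ∀ p ≤ P, bd p ≤ N + 1) :
    ∀ p, p ≤ P → ∃ (H : Finset V → (Finset V → ZMod 2) →+ ZMod 2) (W : Finset V → Finset V),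
      ∀ q, q ≤ p → ∀ s, X.Cell q s → (W s).card ≤ bd q ∧ (∀ v ∈ W s, X.face {v}) ∧
        (∀ φ φ', (∀ t ⊆ W s, X.Cell (q + 1) t → φ t = φ' t) → H s φ = H s φ') ∧
        ∀ φ, H s (dX X q φ) = φ s + ∑ v ∈ s, H (s.erase v) φ := by
  classical
  haveI : Nonempty V := ⟨b⟩
  intro p
  induction p with
  | zero =>
    intro _
    refine ⟨fun _ => Pi.evalAddMonoidHom (fun _ => ZMod 2) {b}, fun _ => {b}, fun q hq s hs => ?_⟩
    obtain rfl : q = 0 := Nat.le_zero.1 hq
    obtain rfl : s = ∅ := Finset.card_eq_zero.1 hs.2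
    refine ⟨by simp [bd], by simpa using hb, fun φ φ' h => ?_, fun φ => ?_⟩
    · exact h {b} subset_rfl ⟨hb, Finset.card_singleton b⟩
    · rw [Finset.sum_empty, add_zero, Pi.evalAddMonoidHom_apply,
        dX_cell X φ ⟨hb, Finset.card_singleton b⟩, Finset.sum_singleton, Finset.erase_singleton]
  | succ p ih =>
    intro hp
    obtain ⟨H, W, hH⟩ := ih (by omega)
    let W₀ : Finset V → Finset V := fun s => s ∪ s.biUnion fun v => W (s.erase v)
    have key : ∀ s, X.Cell (p + 1) s → ∃ (w : V) (H' : (Finset V → ZMod 2) →+ ZMod 2),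
        (insert w (W₀ s)).card ≤ bd (p + 1) ∧ (∀ v ∈ insert w (W₀ s), X.face {v}) ∧
        (∀ φ φ', (∀ t ⊆ insert w (W₀ s), X.Cell (p + 2) t → φ t = φ' t) → H' φ = H' φ') ∧
        ∀ φ, H' (dX X (p + 1) φ) = φ s + ∑ v ∈ s, H (s.erase v) φ := by
      intro s hs
      have hsub : ∀ v ∈ s, X.Cell p (s.erase v) := fun v hv => hs.erase hv
      have hface : ∀ v ∈ W₀ s, X.face {v} := by
        intro v hv
        rcases Finset.mem_union.1 hv with h | h
        · exact X.down hs.1 (Finset.singleton_subset_iff.2 h)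
        · obtain ⟨u, hu, hvu⟩ := Finset.mem_biUnion.1 h
          exact (hH p le_rfl _ (hsub u hu)).2.1 v hvu
      have hcard : (W₀ s).card + 1 ≤ bd (p + 1) := by
        have h1 := Finset.card_union_le s (s.biUnion fun v => W (s.erase v))
        have h2 := Finset.card_biUnion_le_card_mul s (fun v => W (s.erase v)) (bd p)
          fun v hv => (hH p le_rfl _ (hsub v hv)).1
        simp only [W₀, bd, hs.2] at h1 h2 ⊢
        rw [mul_add, mul_one]
        omega
      obtain ⟨w, hw, hwc⟩ := hc (W₀ s) (by have := hN (p + 1) hp; omega) hface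
      let L : (Finset V → ZMod 2) →+ ZMod 2 :=
        Pi.evalAddMonoidHom (fun _ => ZMod 2) s + ∑ v ∈ s, H (s.erase v)
      have hL : ∀ φ φ', (∀ t ⊆ W₀ s, X.Cell (p + 1) t → φ t = φ' t) → L φ = L φ' := by
        intro φ φ' h
        simp only [L, AddMonoidHom.add_apply, AddMonoidHom.finset_sum_apply,
          Pi.evalAddMonoidHom_apply]
        refine congrArg₂ (· + ·) (h s Finset.subset_union_left hs)
          (Finset.sum_congr rfl fun v hv => (hH p le_rfl _ (hsub v hv)).2.2.1 φ φ'
            fun t ht htc => h t (fun u hu => ?_) htc)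
        exact Finset.mem_union_right _ (Finset.mem_biUnion.2 ⟨v, hv, ht hu⟩)
      have hLd : ∀ ψ, L (dX X p ψ) = 0 := by
        intro ψ
        simp only [L, AddMonoidHom.add_apply, AddMonoidHom.finset_sum_apply,
          Pi.evalAddMonoidHom_apply]
        rw [dX_cell X ψ hs,
          Finset.sum_congr rfl fun v hv => (hH p le_rfl _ (hsub v hv)).2.2.2 ψ,
          Finset.sum_add_distrib, sum_erase_erase fun t => H t ψ, add_zero]
        exact CharTwo.add_self_eq_zero _
      refine ⟨w, L.comp (AddMonoidHom.mk' (fun φ t => φ (insert w t)) fun _ _ => rfl),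
        ((Finset.card_insert_le _ _).trans hcard), ?_, fun φ φ' h => ?_, fun φ => ?_⟩
      · intro v hv
        rcases Finset.mem_insert.1 hv with rfl | h
        · exact hw
        · exact hface v h
      · refine hL _ _ fun t ht htc => h _ (Finset.insert_subset_insert w ht) ?_
        obtain ⟨hwt, hwf⟩ := hwc t ht htc.1 (by rw [htc.2]; exact hp)
        exact ⟨hwf, by rw [Finset.card_insert_of_notMem hwt, htc.2]⟩
      · show L (fun t => dX X (p + 1) φ (insert w t)) = _
        rw [hL _ (φ + dX X p fun u => φ (insert w u)) fun t ht htc => ?_, map_add, hLd, add_zero]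
        · simp only [L, AddMonoidHom.add_apply, AddMonoidHom.finset_sum_apply,
            Pi.evalAddMonoidHom_apply]
        · obtain ⟨hwt, hwf⟩ := hwc t ht htc.1 (by rw [htc.2]; exact hp)
          rw [dX_cell X φ ⟨hwf, by rw [Finset.card_insert_of_notMem hwt, htc.2]⟩,
            Finset.sum_insert hwt, Finset.erase_insert hwt, Pi.add_apply, dX_cell X _ htc]
          exact congrArg₂ (· + ·) rfl (Finset.sum_congr rfl fun v hv =>
            congrArg φ (Finset.erase_insert_of_ne fun h => hwt (h ▸ hv)))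
    choose! w H' h1 h2 h3 h4 using key
    refine ⟨fun s => if X.Cell (p + 1) s then H' s else H s,
      fun s => if X.Cell (p + 1) s then insert (w s) (W₀ s) else W s, fun q hq s hs => ?_⟩
    have hlow : ∀ {r : ℕ} {t : Finset V}, r ≤ p → X.Cell r t → ¬X.Cell (p + 1) t :=
      fun hr ht h => by have := ht.2; have := h.2; omega
    rcases Nat.lt_or_eq_of_le hq with hq' | rfl
    · have hq2 : q ≤ p := by omega
      simp only [if_neg (hlow hq2 hs)]
      refine ⟨(hH q hq2 s hs).1, (hH q hq2 s hs).2.1, (hH q hq2 s hs).2.2.1, fun φ => ?_⟩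
      rw [(hH q hq2 s hs).2.2.2 φ]
      refine congrArg _ (Finset.sum_congr rfl fun v hv => ?_)
      have hlt : (s.erase v).card < p + 1 := by
        rw [Finset.card_erase_of_mem hv, hs.2]; omega
      rw [if_neg fun h : X.Cell (p + 1) (s.erase v) => by have := h.2; omega]
    · simp only [if_pos hs]
      refine ⟨h1 s hs, h2 s hs, h3 s hs, fun φ => ?_⟩
      rw [h4 s hs φ]
      refine congrArg _ (Finset.sum_congr rfl fun v hv => ?_)
      rw [if_neg (hlow le_rfl (hs.erase hv))]

/-- Exactness from cone points. -/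
theorem ex_of_cones {b : V} (hb : X.face {b}) {N : ℕ} {k : ℕ} (hc : HasCones X N (k + 1))
    (hN : ∀ p ≤ k + 1, bd p ≤ N + 1) : Ex X k := by
  classical
  obtain ⟨H, W, hH⟩ := exists_fill X hb hc hN (k + 1) le_rfl
  intro φ hφ hd
  refine ⟨fun s => if X.Cell k s then H s φ else 0, fun s hs => if_neg hs, funext fun s => ?_⟩
  by_cases hs : X.Cell (k + 1) s
  · rw [dX_cell X _ hs]
    have h := (hH (k + 1) le_rfl s hs).2.2.2 φ
    rw [hd, map_zero] at h
    rw [Finset.sum_congr rfl fun v hv => if_pos (hs.erase hv)]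
    exact (CharTwo.add_eq_zero.1 h.symm).symm
  · rw [dX_not X _ hs, hφ s hs]

end Vale.Agent.P067.Coh
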