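import Vale.Agent.P067.Coh.Cochain

/-!
Smearing the arguments by an invariant mean of a subgroup `N` acting on the right: cohomology does
not see such a subgroup. Consequences for semidirect products and a transfer for finite odd index.
-/

namespace Vale.Agent.P067.Coh

variable {G : Type*} [Group G] {N : Subgroup G}

/-- Smear every argument. -/
def smear (Φ : (↥N → ZMod 2) →ₗ[ZMod 2] ZMod 2) : {q : ℕ} → Fn G q → Fn G q
  | 0, f => f
  | _ + 1, f => fun x => Φ fun w => smear Φ (cur f (x 0 * (w : G))) (Fin.tail x)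

/-- The homotopy between smearing and the identity. -/
def smearH (Φ : (↥N → ZMod 2) →ₗ[ZMod 2] ZMod 2) : {q : ℕ} → Fn G (q + 1) → Fn G q
  | 0, _ => 0
  | _ + 1, f => fun x =>
      (Φ fun w => smear Φ (cur (cur f (x 0)) (x 0 * (w : G))) (Fin.tail x)) +
        smearH Φ (cur f (x 0)) (Fin.tail x)

variable (Φ : (↥N → ZMod 2) →ₗ[ZMod 2] ZMod 2) (h1 : Φ (fun _ => 1) = 1)

theorem smear_cons {q : ℕ} (f : Fn G (q + 1)) (a : G) (x : Fin q → G) :
    smear Φ f (Fin.cons a x) = Φ fun w => smear Φ (cur f (a * (w : G))) x := by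
  simp [smear]

theorem smearH_cons {q : ℕ} (f : Fn G (q + 2)) (a : G) (x : Fin q → G) :
    smearH Φ f (Fin.cons a x) =
      (Φ fun w => smear Φ (cur (cur f a) (a * (w : G))) x) + smearH Φ (cur f a) x := by
  simp [smearH]

theorem smear_add {q : ℕ} (f g : Fn G q) : smear Φ (f + g) = smear Φ f + smear Φ g := by
  induction q with
  | zero => rfl
  | succ q ih =>
    funext x
    rw [← Fin.cons_self_tail x, Pi.add_apply, smear_cons, smear_cons, smear_cons, ← map_add]
    refine congrArg Φ (funext fun w => ?_)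
    have h : cur (f + g) (x 0 * (w : G)) = cur f (x 0 * (w : G)) + cur g (x 0 * (w : G)) := rfl
    simp only [h, ih, Pi.add_apply]

theorem smear_zero {q : ℕ} : smear Φ (0 : Fn G q) = 0 := by
  have h := smear_add Φ (0 : Fn G q) 0
  rw [add_zero] at h
  exact left_eq_add.1 h

theorem smearH_add {q : ℕ} (f g : Fn G (q + 1)) :
    smearH Φ (f + g) = smearH Φ f + smearH Φ g := by
  induction q with
  | zero => simp [smearH]
  | succ q ih =>
    funext x
    rw [← Fin.cons_self_tail x, Pi.add_apply, smearH_cons, smearH_cons, smearH_cons]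
    have h : ∀ a : G, cur (f + g) a = cur f a + cur g a := fun _ => rfl
    have h' : ∀ (u v : Fn G (q + 1)) (a : G), cur (u + v) a = cur u a + cur v a :=
      fun _ _ _ => rfl
    simp only [h, h', smear_add, ih, Pi.add_apply]
    rw [show (fun w : ↥N => smear Φ (cur (cur f (x 0)) (x 0 * ↑w)) (Fin.tail x) +
      smear Φ (cur (cur g (x 0)) (x 0 * ↑w)) (Fin.tail x)) =
      (fun w : ↥N => smear Φ (cur (cur f (x 0)) (x 0 * ↑w)) (Fin.tail x)) +
      fun w : ↥N => smear Φ (cur (cur g (x 0)) (x 0 * ↑w)) (Fin.tail x) from rfl, map_add]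
    abel

include h1

theorem mean_const (c : ZMod 2) : Φ (fun _ => c) = c := by
  rw [show (fun _ : ↥N => c) = c • fun _ => 1 from funext fun _ => by simp, map_smul, h1]
  simp

theorem mean_const_add (c : ZMod 2) (u : ↥N → ZMod 2) :
    Φ (fun w => c + u w) = c + Φ u := by
  rw [show (fun w => c + u w) = (fun _ => c) + u from rfl, map_add, mean_const Φ h1]

theorem smear_del {q : ℕ} (f : Fn G q) : smear Φ (del f) = del (smear Φ f) := by
  induction q with
  | zero =>
    funext x
    rw [← Fin.cons_self_tail x, smear_cons, del_cons_zero]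
    simp only [smear, cur, del_cons_zero]
    exact mean_const Φ h1 _
  | succ q ih =>
    funext x
    rw [← Fin.cons_self_tail x, smear_cons, del_cons]
    simp only [cur_del, smear_add, ih, Pi.add_apply]
    rw [mean_const_add Φ h1]
    congr 1
    simp only [del, cur, smear_cons]
    rw [← map_sum]
    exact congrArg Φ (funext fun w => by simp [Finset.sum_apply])

/-- The homotopy formula. -/
theorem smearH_spec {q : ℕ} (f : Fn G (q + 1)) :
    del (smearH Φ f) + smearH Φ (del f) = f + smear Φ f := by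
  induction q with
  | zero =>
    funext x
    rw [← Fin.cons_self_tail x]
    have hd : del (smearH Φ f) = 0 := del_zero
    simp only [hd, Pi.add_apply, Pi.zero_apply, zero_add, smearH_cons, smear_cons]
    have e : ∀ w : ↥N, cur (cur (del f) (x 0)) (x 0 * ↑w) (Fin.tail x) =
        f (Fin.cons (x 0) (Fin.tail x)) + cur f (x 0 * ↑w) (Fin.tail x) := by
      intro w
      rw [cur_del]
      show f (Fin.cons (x 0 * ↑w) (Fin.tail x)) + del (cur f (x 0)) (Fin.cons (x 0 * ↑w) (Fin.tail x))
        = _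
      rw [del_cons_zero, Subsingleton.elim (Fin.tail x) ![], add_comm]
      rfl
    show (Φ fun w => cur (cur (del f) (x 0)) (x 0 * ↑w) (Fin.tail x)) + 0 = _
    simp only [e, add_zero, smear]
    exact mean_const_add Φ h1 _ _
  | succ q ih =>
    funext x
    rw [← Fin.cons_self_tail x]
    have h := congrFun (ih (cur f (x 0))) (Fin.tail x)
    simp only [Pi.add_apply] at h
    have hc : cur (smearH Φ f) (x 0) =
        (fun y => Φ fun w => smear Φ (cur (cur f (x 0)) (x 0 * (w : G))) y) +
          smearH Φ (cur f (x 0)) := funext fun y => smearH_cons Φ f (x 0) y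
    have hd : del (fun y => Φ fun w => smear Φ (cur (cur f (x 0)) (x 0 * (w : G))) y) (Fin.tail x) =
        Φ fun w => del (smear Φ (cur (cur f (x 0)) (x 0 * (w : G)))) (Fin.tail x) := by
      simp only [del]
      rw [← map_sum]
      exact congrArg Φ (funext fun w => Finset.sum_apply _ _ _)
    simp only [Pi.add_apply, del_cons, hc, del_add, hd, smearH_cons, cur_del, smearH_add,
      smear_cons]
    have e : ∀ w : ↥N, smear Φ (cur (f + del (cur f (x 0))) (x 0 * ↑w)) (Fin.tail x) =
        smear Φ (cur f (x 0)) (Fin.tail x) + (smear Φ (cur f (x 0 * ↑w)) (Fin.tail x) +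
          del (smear Φ (cur (cur f (x 0)) (x 0 * ↑w))) (Fin.tail x)) := by
      intro w
      rw [show cur (f + del (cur f (x 0))) (x 0 * ↑w) =
        cur f (x 0 * ↑w) + cur (del (cur f (x 0))) (x 0 * ↑w) from rfl, cur_del, smear_add,
        smear_add, smear_del Φ h1]
      simp only [Pi.add_apply]
      ring
    simp only [e]
    rw [mean_const_add Φ h1, show (fun w : ↥N => smear Φ (cur f (x 0 * ↑w)) (Fin.tail x) +
      del (smear Φ (cur (cur f (x 0)) (x 0 * ↑w))) (Fin.tail x)) =
      (fun w : ↥N => smear Φ (cur f (x 0 * ↑w)) (Fin.tail x)) +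
      fun w : ↥N => del (smear Φ (cur (cur f (x 0)) (x 0 * ↑w))) (Fin.tail x) from rfl, map_add]
    simp only [cur] at h ⊢
    linear_combination (norm := ring_nf) h
    rw [show (2 : ZMod 2) = 0 from rfl]
    ring

omit h1

theorem smear_smul (g : G) {q : ℕ} (f : Fn G q) (x : Fin q → G) :
    smear Φ f ((g * ·) ∘ x) = smear Φ (pull (g * ·) f) x := by
  induction q with
  | zero => exact congrArg f (Subsingleton.elim _ _)
  | succ q ih =>
    rw [← Fin.cons_self_tail x, Fin.comp_cons, smear_cons, smear_cons]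
    refine congrArg Φ (funext fun w => ?_)
    rw [ih]
    refine congrArg (fun u => smear Φ u _) (funext fun y => ?_)
    simp only [pull, cur, Fin.comp_cons, mul_assoc]

theorem smearH_smul (g : G) {q : ℕ} (f : Fn G (q + 1)) (x : Fin q → G) :
    smearH Φ f ((g * ·) ∘ x) = smearH Φ (pull (g * ·) f) x := by
  induction q with
  | zero => rfl
  | succ q ih =>
    rw [← Fin.cons_self_tail x, Fin.comp_cons, smearH_cons, smearH_cons, ih]
    simp only [smear_smul]
    refine congrArg₂ (· + ·) (congrArg Φ (funext fun w => ?_))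
      (congrArg (fun u => smearH Φ u _) (funext fun y => ?_))
    · refine congrArg (fun u => smear Φ u _) (funext fun y => ?_)
      simp only [pull, cur, Fin.comp_cons, mul_assoc]
    · simp only [pull, cur, Fin.comp_cons]

theorem inv_smear {K : Subgroup G} {q : ℕ} {f : Fn G q} (hf : Inv K f) :
    Inv K (smear Φ f) := fun g hg x => by
  rw [smear_smul Φ g f x, show pull (g * ·) f = f from funext fun y => hf g hg y]

theorem inv_smearH {K : Subgroup G} {q : ℕ} {f : Fn G (q + 1)} (hf : Inv K f) :
    Inv K (smearH Φ f) := fun g hg x => by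
  rw [smearH_smul Φ g f x, show pull (g * ·) f = f from funext fun y => hf g hg y]

variable (hΦ : ∀ (g : ↥N) u, Φ (fun m => u (g * m)) = Φ u)
include hΦ

/-- Smeared functions do not see a right translation of the arguments by `N`. -/
theorem smear_right {q : ℕ} (f : Fn G q) (x y : Fin q → G) (h : ∀ i, (x i)⁻¹ * y i ∈ N) :
    smear Φ f x = smear Φ f y := by
  induction q with
  | zero => exact congrArg f (Subsingleton.elim _ _)
  | succ q ih =>
    rw [← Fin.cons_self_tail x, ← Fin.cons_self_tail y, smear_cons, smear_cons]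
    rw [← hΦ ⟨_, h 0⟩ fun w => smear Φ (cur f (x 0 * (w : G))) (Fin.tail x)]
    refine congrArg Φ (funext fun w => ?_)
    rw [Subgroup.coe_mul, mul_assoc (x 0)⁻¹, mul_inv_cancel_left]
    exact ih _ _ _ fun i => h i.succ

include h1

theorem cob_smear {K : Subgroup G} {q : ℕ} {f : Fn G (q + 1)} (hf : Inv K f) (hd : del f = 0) :
    Cob K (f + smear Φ f) := by
  refine ⟨smearH Φ f, inv_smearH Φ hf, ?_⟩
  have h := smearH_spec Φ h1 f
  have h0 : smearH Φ (0 : Fn G (q + 2)) = 0 := by
    have h2 := smearH_add Φ (0 : Fn G (q + 2)) 0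
    rw [add_zero] at h2
    exact left_eq_add.1 h2
  rwa [hd, h0, add_zero] at h

/-- In `A = N B` a cocycle of `A` which is a coboundary of `B` is one of `A`. -/
theorem cob_of_complement {A B : Subgroup G} (hNA : N ≤ A)
    (hN : ∀ a ∈ A, ∀ m ∈ N, a⁻¹ * m * a ∈ N) (hdec : ∀ a ∈ A, ∃ m ∈ N, ∃ b ∈ B, m * b = a)
    {q : ℕ} {f : Fn G (q + 1)} (hf : Inv A f) (hd : del f = 0) (hB : Cob B f) : Cob A f := by
  obtain ⟨r, hrA, hr⟩ := exists_retraction A
  obtain ⟨h, hh, hhd⟩ := hB
  have h3 : Cob A (pull r (smear Φ f)) := by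
    refine ⟨pull r (smear Φ h), fun g hg x => ?_, by rw [← pull_del, ← smear_del Φ h1, hhd]⟩
    obtain ⟨m, hm, b, hb, rfl⟩ := hdec g hg
    have hgx : r ∘ ((m * b) * ·) ∘ x = (m * ·) ∘ (b * ·) ∘ r ∘ x := funext fun i => by
      simp only [Function.comp_apply]
      rw [hr _ hg, mul_assoc]
    have hbA : b ∈ A := by
      have := mul_mem (inv_mem (hNA hm)) hg
      rwa [inv_mul_cancel_left] at this
    show smear Φ h (r ∘ ((m * b) * ·) ∘ x) = smear Φ h (r ∘ x)
    rw [hgx]
    refine (smear_right Φ hΦ h _ ((b * ·) ∘ r ∘ x) fun i => ?_).trans (inv_smear Φ hh b hb (r ∘ x))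
    simp only [Function.comp_apply]
    have h4 := hN _ (mul_mem hbA (hrA (x i))) m⁻¹ (inv_mem hm)
    rwa [mul_inv_rev]
  have h4 := (cob_smear Φ h1 hΦ hf hd).add ((cob_compare (φ := id) (ψ := r) (c := id)
    (fun g hg => hg) (fun g _ x => rfl) hr (inv_smear Φ hf)
    (by rw [← smear_del Φ h1, hd, smear_zero])).add h3)
  refine (show f + smear Φ f + (pull id (smear Φ f) + pull r (smear Φ f) + pull r (smear Φ f))
    = f from funext fun x => ?_) ▸ h4
  simp only [Pi.add_apply, pull, Function.id_comp]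
  linear_combination (norm := ring_nf) (0 : ZMod 2) = 0
  rw [show (2 : ZMod 2) = 0 from rfl]
  ring

/-- An element which moves `B` inside `N B` fixes the restriction to `B` of every class. -/
theorem cob_twist {A B L : Subgroup G} (hAL : A ≤ L) {g : G}
    (hgB : ∀ b ∈ B, g * b * g⁻¹ ∈ A ∧ b⁻¹ * (g * b * g⁻¹) ∈ N) (hBA : B ≤ A)
    {q : ℕ} {f : Fn G (q + 1)} (hf : Inv L f) (hd : del f = 0) :
    Cob B (pull (g * ·) f + f) := by
  obtain ⟨r, hrB, hr⟩ := exists_retraction B
  have hfA : Inv A f := hf.mono hAL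
  set φ₁ : G → G := fun x => g * r x
  set φ₂ : G → G := fun x => g * r x * g⁻¹
  set c : G → G := fun b => g * b * g⁻¹
  have e1 : Cob B (pull (g * ·) f + pull φ₁ f) :=
    cob_compare (c := c) (fun b hb => (hgB b hb).1) (fun b _ x => by simp [c, mul_assoc])
      (fun b hb x => by simp [c, φ₁, hr b hb, mul_assoc]) hfA hd
  have e2 : Cob B (pull φ₁ f + pull φ₂ f) :=
    cob_compare (c := c) (fun b hb => (hgB b hb).1)
      (fun b hb x => by simp [c, φ₁, hr b hb, mul_assoc])
      (fun b hb x => by simp [c, φ₂, hr b hb, mul_assoc]) hfA hd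
  have e3 : Cob B (pull φ₂ (f + smear Φ f)) :=
    (cob_smear Φ h1 hΦ hfA hd).pull (c := c) (fun b hb => (hgB b hb).1)
      (fun b hb x => by simp [c, φ₂, hr b hb, mul_assoc])
  have e4 : pull φ₂ (smear Φ f) = pull r (smear Φ f) := funext fun x =>
    (smear_right Φ hΦ f (r ∘ x) (φ₂ ∘ x) fun i => (hgB _ (hrB (x i))).2).symm
  have e5 : Cob B (pull r (f + smear Φ f)) :=
    (cob_smear Φ h1 hΦ hfA hd).pull (c := id) (fun b hb => hBA hb)
      (fun b hb x => hr b hb x)
  have e6 : Cob B (pull r f + pull id f) :=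
    cob_compare (c := id) (fun b hb => hBA hb) hr (fun b _ x => rfl) hfA hd
  refine (show pull (g * ·) f + pull φ₁ f + (pull φ₁ f + pull φ₂ f) +
    pull φ₂ (f + smear Φ f) + pull r (f + smear Φ f) + (pull r f + pull id f) =
      pull (g * ·) f + f from ?_) ▸ ((((e1.add e2).add e3).add e5).add e6)
  funext x
  have h4 := congrFun e4 x
  simp only [Pi.add_apply, pull, Function.id_comp] at h4 ⊢
  linear_combination (norm := ring_nf) h4
  rw [show (2 : ZMod 2) = 0 from rfl]
  ring

end Vale.Agent.P067.Coh
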