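import Vale.Agent.P067.Coh.Action

/-!
If the group is transitive on the faces of each type then the quotient is a simplex, so invariant
cocycles are coboundaries of invariant cochains.
-/

namespace Vale.Agent.P067.Coh

open scoped Pointwise

variable {G V ι : Type*} [Group G] [MulAction G V] [DecidableEq V] [DecidableEq ι]

/-- The quotient by a type preserving action transitive on each type is a simplex. -/
theorem exInv_of_types (X : Cx G V) (K : Subgroup G) (τ : V → ι) {k : ℕ}
    (hinj : ∀ s, X.face s → Set.InjOn τ (s : Set V)) (hτ : ∀ g ∈ K, ∀ v : V, τ (g • v) = τ v)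
    (htrans : ∀ s t, X.face s → X.face t → s.image τ = t.image τ → ∃ g ∈ K, g • s = t)
    (hex : ∀ T : Finset ι, T.card ≤ k + 2 → ∃ s, X.face s ∧ s.image τ = T) (j : ι) :
    ExInv X K k := by
  classical
  intro φ hφ hinv hd
  have hcard : ∀ s, X.face s → (s.image τ).card = s.card := fun s hs =>
    Finset.card_image_of_injOn (hinj s hs)
  choose f hf using hex
  let Φ : Finset ι → ZMod 2 := fun T => if h : T.card ≤ k + 2 then φ (f T h) else 0
  have hΦ : ∀ s, X.face s → s.card ≤ k + 2 → Φ (s.image τ) = φ s := by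
    intro s hs hc
    have h : (s.image τ).card ≤ k + 2 := by rw [hcard s hs]; exact hc
    simp only [Φ, dif_pos h]
    obtain ⟨g, hg, hgs⟩ := htrans _ s (hf _ h).1 hs (hf _ h).2
    rw [← hinv g hg (f _ h), hgs]
  have herase : ∀ s, X.face s → ∀ v ∈ s, (s.erase v).image τ = (s.image τ).erase (τ v) := by
    intro s hs v hv
    ext t
    simp only [Finset.mem_image, Finset.mem_erase]
    constructor
    · rintro ⟨u, ⟨huv, hu⟩, rfl⟩
      exact ⟨fun h => huv (hinj s hs hu hv h), u, hu, rfl⟩
    · rintro ⟨ht, u, hu, rfl⟩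
      exact ⟨u, ⟨fun h => ht (h ▸ rfl), hu⟩, rfl⟩
  have hsum : ∀ s, X.face s → ∀ F : Finset ι → ZMod 2,
      ∑ v ∈ s, F ((s.image τ).erase (τ v)) = ∑ t ∈ s.image τ, F ((s.image τ).erase t) :=
    fun s hs F => (Finset.sum_image (f := fun t => F ((s.image τ).erase t)) (hinj s hs)).symm
  have hdΦ : ∀ T : Finset ι, T.card = k + 2 → ∑ t ∈ T, Φ (T.erase t) = 0 := by
    intro T hT
    obtain ⟨hs, hst⟩ := hf T hT.le
    have hc : (f T hT.le).card = k + 2 := by rw [← hcard _ hs, hst, hT]
    have h := congrFun hd (f T hT.le)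
    rw [dX_cell X φ ⟨hs, hc⟩, Pi.zero_apply] at h
    refine Eq.trans ?_ h
    conv_lhs => rw [← hst, ← hsum _ hs]
    refine Finset.sum_congr rfl fun v hv => ?_
    rw [← herase _ hs v hv, hΦ _ (X.down hs (Finset.erase_subset _ _))
      (by rw [Finset.card_erase_of_mem hv, hc]; omega)]
  let Ψ : Finset ι → ZMod 2 := fun T => if j ∈ T then 0 else Φ (insert j T)
  have hdΨ : ∀ T : Finset ι, T.card = k + 1 → ∑ t ∈ T, Ψ (T.erase t) = Φ T := by
    intro T hT
    by_cases hj : j ∈ T
    · rw [Finset.sum_eq_single j]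
      · simp only [Ψ, if_neg (Finset.notMem_erase j T), Finset.insert_erase hj]
      · intro t _ ht
        simp only [Ψ, if_pos (Finset.mem_erase.2 ⟨Ne.symm ht, hj⟩)]
      · exact fun h => absurd hj h
    · have h := hdΦ (insert j T) (by rw [Finset.card_insert_of_notMem hj, hT])
      rw [Finset.sum_insert hj, Finset.erase_insert hj] at h
      rw [CharTwo.add_eq_zero] at h
      rw [h]
      refine Finset.sum_congr rfl fun t ht => ?_
      simp only [Ψ, if_neg fun hm => hj (Finset.mem_of_mem_erase hm)]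
      rw [Finset.erase_insert_of_ne fun e => hj (by rw [e]; exact ht)]
  refine ⟨fun s => if X.Cell k s then Ψ (s.image τ) else 0, fun s hs => if_neg hs,
    fun g hg s => ?_, funext fun s => ?_⟩
  · by_cases hs : X.Cell k s
    · simp only [if_pos hs, if_pos ((X.cell_smul g).2 hs)]
      congr 1
      rw [Finset.smul_finset_def, Finset.image_image]
      exact Finset.image_congr fun v _ => hτ g hg v
    · simp only [if_neg hs, if_neg fun h => hs ((X.cell_smul g).1 h)]
  · by_cases hs : X.Cell (k + 1) s
    · rw [dX_cell X _ hs, ← hΦ s hs.1 (by rw [hs.2]; omega),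
        ← hdΨ _ (by rw [hcard s hs.1, hs.2]), ← hsum s hs.1]
      refine Finset.sum_congr rfl fun v hv => ?_
      rw [if_pos (hs.erase hv), herase s hs.1 v hv]
    · rw [dX_not X _ hs, hφ s hs]

end Vale.Agent.P067.Coh
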