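import Vale.Agent.P067.Coh.Block
import Vale.Agent.P067.Coh.Cone
import Vale.Agent.P067.Coh.Quot
import Vale.Agent.P067.Frames.Cone

/-!
Stability: congruence subgroups of large rank have no cohomology modulo two in low degrees, given
that the groups `U` have none.
-/

namespace Vale.Agent.P067.Coh

open Matrix Polynomial
open scoped Pointwise

noncomputable section

/-- Column vectors, acted on by matrices. -/
def Vec (ι R : Type) : Type := ι → R

instance (ι R : Type) [Fintype ι] [DecidableEq R] : DecidableEq (Vec ι R) :=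
  fun a b => Fintype.decidablePiFintype (a : ι → R) b

variable {ι : Type} [Fintype ι] [DecidableEq ι] {R : Type} [CommRing R] [DecidableEq R]

instance : MulAction (SpecialLinearGroup ι R) (Vec ι R) where
  smul g v := ((g : Matrix ι ι R) *ᵥ v : ι → R)
  one_smul v := by
    exact one_mulVec (v : ι → R)
  mul_smul g h v := by
    show (((g * h : SpecialLinearGroup ι R) : Matrix ι ι R) *ᵥ v : ι → R) = _
    exact Frames.mulVec_mul g h v

/-- The basis vector as a vertex. -/
def ev (b : ι) : Vec ι R := Frames.e b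

theorem smul_ev (g : SpecialLinearGroup ι R) (b : ι) :
    g • (ev b : Vec ι R) = ((g : Matrix ι ι R) *ᵥ Frames.e b : ι → R) := rfl

variable (c : R)

/-- Congruent frames. -/
def IsFr (s : Finset (Vec ι R)) : Prop :=
  ∃ g ∈ (Frames.cong c : Subgroup (SpecialLinearGroup ι R)), ∃ J : Finset ι,
    s = J.image fun b => g • (ev b : Vec ι R)

variable {c}

theorem isFr_down {s t : Finset (Vec ι R)} (h : IsFr c s) (ht : t ⊆ s) : IsFr c t := by
  obtain ⟨g, hg, J, rfl⟩ := h
  refine ⟨g, hg, J.filter fun b => g • (ev b : Vec ι R) ∈ t, ?_⟩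
  ext v
  simp only [Finset.mem_image, Finset.mem_filter]
  constructor
  · intro hv
    obtain ⟨b, hb, rfl⟩ := Finset.mem_image.1 (ht hv)
    exact ⟨b, ⟨hb, hv⟩, rfl⟩
  · rintro ⟨b, ⟨-, hb⟩, rfl⟩
    exact hb

variable (c)

/-- The complex of congruent frames. -/
def frameCx : Cx ↥(Frames.cong c : Subgroup (SpecialLinearGroup ι R)) (Vec ι R) where
  face := IsFr c
  down := isFr_down
  smul_mem k s h := by
    obtain ⟨g, hg, J, rfl⟩ := h
    refine ⟨k.1 * g, mul_mem k.2 hg, J, ?_⟩
    rw [Finset.smul_finset_def, Finset.image_image]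
    refine Finset.image_congr fun b _ => ?_
    show k.1 • g • (ev b : Vec ι R) = _
    rw [smul_smul]

/-- The type of a congruent vector. -/
def vtype [Inhabited ι] (v : Vec ι R) : ι :=
  @Classical.epsilon ι ⟨default⟩ fun b =>
    ∀ g : SpecialLinearGroup ι R, ∀ a, g ∈ Frames.cong c → g • (ev a : Vec ι R) = v → a = b

variable {c}

theorem vtype_eq [Inhabited ι] (hc : ¬IsUnit c) {g : SpecialLinearGroup ι R}
    (hg : g ∈ Frames.cong c) (b : ι) : vtype c (g • (ev b : Vec ι R)) = b := by
  have h := @Classical.epsilon_spec ι (fun b' => ∀ g' : SpecialLinearGroup ι R, ∀ a,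
    g' ∈ Frames.cong c → g' • (ev a : Vec ι R) = g • (ev b : Vec ι R) → a = b')
    ⟨b, fun g' a hg' h => Frames.col_inj hc hg' hg h⟩
  exact (h g b hg rfl).symm

/-- Cocycles pulled back to the subgroup which are coboundaries give coboundaries. -/
theorem cob_of_pull {G : Type*} [Group G] {L : Subgroup G} {q : ℕ} {f : Fn G (q + 1)}
    (hf : Inv L f) (hd : del f = 0) (h : Cob (⊤ : Subgroup ↥L) (pull L.subtype f)) : Cob L f := by
  classical
  obtain ⟨r, hrL, hr⟩ := exists_retraction L
  obtain ⟨u, hu, hud⟩ := h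
  let r' : G → ↥L := fun x => ⟨r x, hrL x⟩
  have h1 : Cob L (pull r' (pull L.subtype f)) := by
    refine ⟨pull r' u, hu.pull (c := fun g => if h : g ∈ L then ⟨g, h⟩ else 1)
      (fun _ _ => Subgroup.mem_top _) (fun g hg x => Subtype.ext ?_), by rw [← pull_del, hud]⟩
    simp only [dif_pos hg]
    exact hr g hg x
  have h2 : Cob L (pull id f + pull r f) :=
    cob_compare (c := id) (fun g hg => hg) (fun g _ x => rfl) hr hf hd
  refine (show pull id f + pull r f + pull r' (pull L.subtype f) = f from funext fun x => ?_)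
    ▸ h2.add h1
  simp [pull, Function.comp_def, r', add_assoc, CharTwo.add_self_eq_zero]

/-- Conjugates. -/
theorem cob_conj {G : Type*} [Group G] {K L : Subgroup G} {g : G} (hg : g ∈ L) {q : ℕ}
    {f : Fn G (q + 1)} (hf : Inv L f) (h : Cob K f) :
    Cob (K.map (MulAut.conj g).toMonoidHom) f := by
  have e : pull (g⁻¹ * ·) f = f := funext fun x => hf g⁻¹ (inv_mem hg) x
  rw [← e]
  refine h.pull (c := fun a => g⁻¹ * a * g) (fun a ha => ?_) fun a _ x => by simp [mul_assoc]
  obtain ⟨k, hk, rfl⟩ := Subgroup.mem_map.1 ha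
  simpa [MulAut.conj_apply, mul_assoc] using hk

/-- The stabiliser of a frame is a conjugate of the stabiliser of the basis frame. -/
theorem stab_frame (hc : ¬IsUnit c) {g : SpecialLinearGroup ι R} (hg : g ∈ Frames.cong c)
    (J : Finset ι) :
    ((⊤ : Subgroup ↥(Frames.cong c : Subgroup (SpecialLinearGroup ι R))) ⊓
        MulAction.stabilizer _ (J.image fun b => g • (ev b : Vec ι R))).map
          (Frames.cong c).subtype =
      (fixJ c J).map (MulAut.conj g).toMonoidHom := by
  ext x
  simp only [Subgroup.mem_map, top_inf_eq, MulAction.mem_stabilizer_iff, MulEquiv.coe_toMonoidHom,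
    MulAut.conj_apply]
  constructor
  · rintro ⟨k, hk, rfl⟩
    refine ⟨g⁻¹ * k.1 * g, Subgroup.mem_inf.2 ⟨mul_mem (mul_mem (inv_mem hg) k.2) hg,
      Frames.mem_stab.2 fun b hb => ?_⟩, by simp [mul_assoc]⟩
    classical
    rw [Finset.smul_finset_def] at hk
    have hJ : (J.image fun b => (g : Matrix ι ι R) *ᵥ Frames.e b).image
        (fun v => ((k.1 : SpecialLinearGroup ι R) : Matrix ι ι R) *ᵥ v) =
        J.image fun b => (g : Matrix ι ι R) *ᵥ Frames.e b := by
      ext v
      constructor
      · intro hv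
        obtain ⟨u, hu, rfl⟩ := Finset.mem_image.1 hv
        obtain ⟨b', hb', rfl⟩ := Finset.mem_image.1 hu
        obtain ⟨b'', hb'', he⟩ := Finset.mem_image.1 ((Finset.ext_iff.1 hk _).1
          (Finset.mem_image.2 ⟨_, Finset.mem_image.2 ⟨b', hb', rfl⟩, rfl⟩))
        exact Finset.mem_image.2 ⟨b'', hb'', he⟩
      · intro hv
        obtain ⟨b', hb', rfl⟩ := Finset.mem_image.1 hv
        obtain ⟨u, hu, he⟩ := Finset.mem_image.1 ((Finset.ext_iff.1 hk _).2
          (Finset.mem_image.2 ⟨b', hb', rfl⟩))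
        obtain ⟨b'', hb'', rfl⟩ := Finset.mem_image.1 hu
        exact Finset.mem_image.2 ⟨_, Finset.mem_image.2 ⟨b'', hb'', rfl⟩, he⟩
    rw [Frames.mulVec_mul, Frames.mulVec_mul, Frames.frame_fix hc hg k.2 hJ hb, ← Frames.mulVec_mul,
      inv_mul_cancel]
    exact one_mulVec _
  · rintro ⟨a, ⟨hac, has⟩, rfl⟩
    refine ⟨⟨g * a * g⁻¹, mul_mem (mul_mem hg hac) (inv_mem hg)⟩, ?_, rfl⟩
    rw [Finset.smul_finset_def, Finset.image_image]
    refine Finset.image_congr fun b hb => ?_
    show (g * a * g⁻¹) • g • (ev b : Vec ι R) = g • (ev b : Vec ι R)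
    rw [smul_smul, inv_mul_cancel_right, ← smul_smul]
    exact congrArg (g • ·) (show a • (ev b : Vec ι R) = ev b from Frames.mem_stab.1 has b hb)

/-- Reindexing. -/
def reHom {κ : Type} [Fintype κ] [DecidableEq κ] (e : ι ≃ κ) :
    SpecialLinearGroup κ R →* SpecialLinearGroup ι R where
  toFun g := ⟨g.1.submatrix e e, by rw [det_submatrix_equiv_self, g.2]⟩
  map_one' := Subtype.ext (submatrix_one_equiv e)
  map_mul' g h := Subtype.ext (submatrix_mul_equiv g.1 h.1 e e e).symm

theorem reHom_injective {κ : Type} [Fintype κ] [DecidableEq κ] (e : ι ≃ κ) :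
    Function.Injective (reHom (R := R) e) := fun g h hgh => by
  refine Subtype.ext (Matrix.ext fun a b => ?_)
  obtain ⟨a, rfl⟩ := e.surjective a
  obtain ⟨b, rfl⟩ := e.surjective b
  exact congrFun (congrFun (congrArg Subtype.val hgh) a) b

theorem reHom_cong {κ : Type} [Fintype κ] [DecidableEq κ] (e : ι ≃ κ) :
    (Frames.cong c : Subgroup (SpecialLinearGroup κ R)).map (reHom e) = Frames.cong c := by
  ext g
  constructor
  · rintro ⟨h, hh, rfl⟩
    refine Frames.mem_cong.2 fun a b => ?_
    show c ∣ h.1 (e a) (e b) - _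
    rw [show (1 : Matrix ι ι R) a b = (1 : Matrix κ κ R) (e a) (e b) by simp [Matrix.one_apply]]
    exact Frames.mem_cong.1 hh _ _
  · intro hg
    refine ⟨reHom e.symm g, Frames.mem_cong.2 fun a b => ?_, Subtype.ext ?_⟩
    · show c ∣ g.1 (e.symm a) (e.symm b) - _
      rw [show (1 : Matrix κ κ R) a b = (1 : Matrix ι ι R) (e.symm a) (e.symm b) by
        simp [Matrix.one_apply]]
      exact Frames.mem_cong.1 hg _ _
    · exact Matrix.ext fun a b => congrArg₂ g.1 (e.symm_apply_apply a) (e.symm_apply_apply b)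

theorem acyc_block {k r : ℕ} (J : Finset ι) (hr : Fintype.card (Frames.Out J) = r)
    (h : Acyc (Frames.cong c : Subgroup (SpecialLinearGroup (Fin r) R)) k) :
    Acyc (blockJ c J) k := by
  have h1 := h.map (reHom_injective (R := R) (Fintype.equivFinOfCardEq hr))
  rw [reHom_cong] at h1
  exact h1.map (Frames.blockHom_injective J)

variable [IsDomain R] [IsPrincipalIdealRing R]

theorem frame_hasCones {π : R} (hπ : Prime π) {s : ℕ} (hs : s ≠ 0) {N P : ℕ}
    (hP : P + 3 ≤ Fintype.card ι) (hN : N + 2 ≤ Fintype.card ι) :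
    HasCones (frameCx (ι := ι) (π ^ s)) N P := by
  classical
  intro W hW _
  obtain ⟨w, hwW, hw, hext⟩ :=
    Frames.frame_cone hπ hs (by omega) (W : Finset (ι → R))
      (le_trans (Nat.add_le_add_right hW 2) hN)
  have conv : ∀ {σ : Finset (ι → R)}, Frames.IsFrame (π ^ s) σ → IsFr (π ^ s) (σ : Finset (Vec ι R)) := by
    rintro σ ⟨g, hg, J, rfl⟩
    refine ⟨g, hg, J, ?_⟩
    ext v
    exact ⟨fun h => Finset.mem_image.2 (Finset.mem_image.1 h),
      fun h => Finset.mem_image.2 (Finset.mem_image.1 h)⟩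
  refine ⟨w, ?_, fun t ht htf htc => ⟨fun h => hwW (ht h), ?_⟩⟩
  · have := conv hw
    exact this
  · have ht' : Frames.IsFrame (π ^ s) (t : Finset (ι → R)) := by
      obtain ⟨g, hg, J, rfl⟩ := htf
      refine ⟨g, hg, J, ?_⟩
      ext v
      exact ⟨fun h => Finset.mem_image.2 (Finset.mem_image.1 h),
      fun h => Finset.mem_image.2 (Finset.mem_image.1 h)⟩
    have := conv (hext t ht ht' (le_trans (Nat.add_le_add_right htc 3) hP))
    refine (Finset.ext fun v => ?_ : (insert w t : Finset (Vec ι R)) = _) ▸ this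
    exact ⟨fun h => Finset.mem_insert.2 (Finset.mem_insert.1 h),
      fun h => Finset.mem_insert.2 (Finset.mem_insert.1 h)⟩

/-- The rank needed in degree `k`. -/
def lo : ℕ → ℕ
  | 0 => 0
  | k + 1 => lo k + bd (k + 1) + k + 6

theorem lo_mono {a b : ℕ} (h : a ≤ b) : lo a ≤ lo b :=
  monotone_nat_of_le_succ (fun k => by simp only [lo]; omega) h

theorem bd_mono {a b : ℕ} (h : a ≤ b) : bd a ≤ bd b :=
  monotone_nat_of_le_succ (fun k => by simp only [bd]; nlinarith [Nat.zero_le (k * (1 + bd k))]) h

variable (p : ℕ) [Fact p.Prime]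

theorem congrKer_le_U (m : ℕ) {s : ℕ} (hs : s ≠ 0) : congrKer (Fin m) p s ≤ U m p := by
  intro g hg
  have h : Matrix.SpecialLinearGroup.map Polynomial.constantCoeff g =
      (1 : Matrix.SpecialLinearGroup (Fin m) (ZMod p)) := by
    refine Subtype.ext (Matrix.ext fun a b => ?_)
    have h1 := Frames.mem_cong.1 (show g ∈ Frames.cong ((X : (ZMod p)[X]) ^ s) from hg) a b
    have h2 : (X : (ZMod p)[X]) ∣ g.1 a b - (1 : Matrix (Fin m) (Fin m) (ZMod p)[X]) a b :=
      (dvd_pow_self _ hs).trans h1
    rw [X_dvd_iff, coeff_sub, sub_eq_zero] at h2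
    show constantCoeff (g.1 a b) = (1 : Matrix (Fin m) (Fin m) (ZMod p)) a b
    rw [constantCoeff_apply, h2]
    by_cases hab : a = b <;> simp [Matrix.one_apply, hab]
  show Matrix.SpecialLinearGroup.map Polynomial.constantCoeff g ∈ lowerUni m p
  rw [h]
  exact one_mem _

/-- Stability. -/
theorem acyc_congrKer (hp : p ≠ 2) {n D s : ℕ} (hs : s ≠ 0)
    (hodd : ∀ m, Finite (Omega m p s) ∧ Odd (Nat.card (Omega m p s)))
    (hU : ∀ k m, 1 ≤ k → k ≤ D → lo k ≤ m → m ≤ n → Acyc (U m p) k) :
    ∀ k, k ≤ D → ∀ m, lo k ≤ m → m ≤ n → Acyc (congrKer (Fin m) p s) k := by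
  classical
  intro k
  induction k using Nat.strong_induction_on with
  | _ k ih =>
    intro hkD m hm hmn
    rcases Nat.eq_zero_or_pos k with rfl | hk
    · exact acyc_zero _
    obtain ⟨k', rfl⟩ : ∃ k', k = k' + 1 := ⟨k - 1, by omega⟩
    have hlo : lo k' + bd (k' + 1) + k' + 6 ≤ m := hm
    have : NeZero m := ⟨by omega⟩
    set c : (ZMod p)[X] := (X : (ZMod p)[X]) ^ s with hcdef
    have hc : ¬IsUnit c := fun h => Polynomial.not_isUnit_X (isUnit_pow_iff hs |>.1 h)
    have hnorm : ∀ u ∈ U m p, ∀ g ∈ congrKer (Fin m) p s, u * g * u⁻¹ ∈ congrKer (Fin m) p s :=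
      fun u _ g hg => (inferInstance : (congrKer (Fin m) p s).Normal).conj_mem g hg u
    have : Finite (↥(U m p) ⧸ (congrKer (Fin m) p s).subgroupOf (U m p)) := (hodd m).1
    refine acyc_of_index (congrKer_le_U p m hs) hnorm (hodd m).2 (hU _ m hk hkD hm hmn) ?_
    intro g _ f hf hd
    -- replace `g` by a product of transvections
    obtain ⟨h, hh, hhg⟩ := Frames.exists_elem_rep (R := (ZMod p)[X]) Polynomial.prime_X s hs g
    have hf' : Inv (congrKer (Fin m) p s) (pull (h * ·) f) :=
      hf.pull (c := fun a => h * a * h⁻¹)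
        (fun a ha => (inferInstance : (congrKer (Fin m) p s).Normal).conj_mem a ha h)
        fun a _ x => by simp [mul_assoc]
    have e : pull (g * ·) f = pull (h * ·) f := funext fun x => by
      have hγ : g * h⁻¹ ∈ congrKer (Fin m) p s := by
        have := (inferInstance : (congrKer (Fin m) p s).Normal).conj_mem _ hhg h
        rwa [mul_inv_cancel_left] at this
      refine Eq.trans (congrArg f (funext fun i => ?_)) (hf _ hγ ((h * ·) ∘ x))
      simp [mul_assoc]
    rw [e]
    set u := pull (h * ·) f + f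
    have hui : Inv (congrKer (Fin m) p s) u := hf'.add hf
    have hud : del u = 0 := by
      rw [del_add, ← pull_del, hd]; exact add_zero _
    refine cob_of_pull hui hud ?_
    have hev : IsFr c ({(ev (0 : Fin m) : Vec (Fin m) (ZMod p)[X])} : Finset _) :=
      ⟨1, one_mem _, {0}, by rw [Finset.image_singleton, one_smul]⟩
    have hExAll : ∀ a ≤ k', Ex (frameCx (ι := Fin m) c) a := fun a ha =>
      ex_of_cones _ hev (N := m - 2)
        (frame_hasCones Polynomial.prime_X hs (by rw [Fintype.card_fin]; omega)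
          (by rw [Fintype.card_fin]; omega))
        fun q hq => by
          have := bd_mono (show q ≤ k' + 1 by omega)
          omega
    refine cob_of_vertices (frameCx (ι := Fin m) c) ⊤ (k := k' + 1)
      (fun a ha => hExAll a (by omega)) ?_ ?_ hev (hui.pull (c := fun a => a.1) (fun a _ => a.2)
        fun a _ x => rfl) (show pull (fun a : ↥(Frames.cong c : Subgroup
        (SpecialLinearGroup (Fin m) (ZMod p)[X])) => a.1) (del u) = 0 by rw [hud]; rfl) ?_
    · -- the quotient is a simplex
      refine exInv_of_types _ ⊤ (vtype c) ?_ ?_ ?_ ?_ 0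
      · rintro _ ⟨g, hg, J, rfl⟩ x hx y hy hxy
        obtain ⟨a, -, rfl⟩ := Finset.mem_image.1 (Finset.mem_coe.1 hx)
        obtain ⟨b, -, rfl⟩ := Finset.mem_image.1 (Finset.mem_coe.1 hy)
        rw [vtype_eq hc hg, vtype_eq hc hg] at hxy
        rw [hxy]
      · intro g _ v
        by_cases hv : ∃ a : Fin m, ∃ k : SpecialLinearGroup (Fin m) (ZMod p)[X],
            k ∈ Frames.cong c ∧ k • (ev a : Vec (Fin m) (ZMod p)[X]) = v
        · obtain ⟨a, k, hk', rfl⟩ := hv
          show vtype c (g.1 • k • (ev a : Vec (Fin m) (ZMod p)[X])) = _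
          rw [smul_smul, vtype_eq hc (mul_mem g.2 hk'), vtype_eq hc hk']
        · have key : ∀ w : Vec (Fin m) (ZMod p)[X],
              (¬∃ a : Fin m, ∃ k : SpecialLinearGroup (Fin m) (ZMod p)[X],
                k ∈ Frames.cong c ∧ k • (ev a : Vec (Fin m) (ZMod p)[X]) = w) →
              (fun b : Fin m => ∀ k : SpecialLinearGroup (Fin m) (ZMod p)[X], ∀ a,
                k ∈ Frames.cong c → k • (ev a : Vec (Fin m) (ZMod p)[X]) = w → a = b) =
                fun _ => True := fun w hw =>
            funext fun b => eq_true fun k a hk' he => absurd ⟨a, k, hk', he⟩ hw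
          simp only [vtype]
          rw [key v hv, key _ fun ⟨a, k, hk', he⟩ => hv ⟨a, g.1⁻¹ * k, mul_mem (inv_mem g.2) hk',
            by rw [mul_smul, he]; exact inv_smul_smul g.1 v⟩]
      · rintro _ _ ⟨g, hg, J, rfl⟩ ⟨g', hg', J', rfl⟩ hJ
        simp only [Finset.image_image, Function.comp_def, vtype_eq hc hg, vtype_eq hc hg',
          Finset.image_id'] at hJ
        subst hJ
        refine ⟨⟨g' * g⁻¹, mul_mem hg' (inv_mem hg)⟩, Subgroup.mem_top _, ?_⟩
        rw [Finset.smul_finset_def, Finset.image_image]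
        refine Finset.image_congr fun b _ => ?_
        show (g' * g⁻¹) • g • (ev b : Vec (Fin m) (ZMod p)[X]) = _
        rw [smul_smul, inv_mul_cancel_right]
      · intro T _
        refine ⟨T.image fun b => (1 : SpecialLinearGroup (Fin m) (ZMod p)[X]) • ev b,
          ⟨1, one_mem _, T, rfl⟩, ?_⟩
        rw [Finset.image_image]
        simp only [Function.comp_def, vtype_eq hc (one_mem _), Finset.image_id']
    · -- stabilisers of larger faces
      rintro a b hab ha s' ⟨⟨g, hg, J, rfl⟩, hs'⟩
      refine Acyc.comap (ι := (Frames.cong c).subtype) Subtype.val_injective ?_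
      rw [stab_frame hc hg J]
      refine Acyc.map (MulEquiv.injective _) (acyc_fixJ (p := p) hp J ?_)
      have hJ : J.card = a := by
        rw [← hs', Finset.card_image_of_injOn]
        intro x _ y _ hxy
        simpa [vtype_eq hc hg] using congrArg (vtype c) hxy
      refine acyc_block J (r := m - a) (by simp [hJ]) ?_
      exact ih b (by omega) (by omega) (m - a)
        (by have := lo_mono (show b ≤ k' by omega); omega) (by omega)
    · -- vertices
      rintro w ⟨g, hg, J, hJw⟩
      obtain ⟨j, hj⟩ : J.Nonempty := by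
        rw [Finset.nonempty_iff_ne_empty]
        rintro rfl
        simp at hJw
      have hJ1 : J = {j} := by
        refine Finset.eq_singleton_iff_unique_mem.2 ⟨hj, fun x hx => ?_⟩
        have hmem : ∀ y ∈ J, g • (ev y : Vec (Fin m) (ZMod p)[X]) = w := fun y hy =>
          Finset.mem_singleton.1 (hJw ▸ Finset.mem_image_of_mem _ hy)
        have := (hmem x hx).trans (hmem j hj).symm
        simpa [vtype_eq hc hg] using congrArg (vtype c) this
      subst hJ1
      have h1 : Cob (blockJ c {j}) u :=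
        elemGroup_le_silent (c := c) (p := p) hp j (k' + 1) hh f hf hd
      have h2 : Cob ((fixJ c {j}).map (MulAut.conj g).toMonoidHom) u :=
        cob_conj hg hui (cob_fixJ (p := p) hp {j} (hui.mono inf_le_left) hud h1)
      rw [← stab_frame hc hg {j}] at h2
      rw [hJw]
      exact h2.pull (c := fun a => a.1) (fun a ha => Subgroup.mem_map_of_mem _ ha) fun a _ x => rfl

end

end Vale.Agent.P067.Coh
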